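import Mathlib

/-!
# P336, row [ASYM]: the choice of the parameters
-/

open Finset

namespace Vale.Agent.P336W

namespace Asym

theorem ev {ε : ℝ} (h0 : 0 < ε) :
    ∃ X : ℝ, ∀ x : ℝ, X ≤ x → 1536 * x ^ 4 ≤ Real.exp (ε / 2 * x) ∧ 1536 ≤ x := by
  have h1 := tendsto_exp_mul_div_rpow_atTop 4 (ε / 2) (by positivity)
  have h2 := h1.eventually_ge_atTop 1536
  obtain ⟨X, hX⟩ := Filter.eventually_atTop.1 (h2.and (Filter.eventually_ge_atTop 1536))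
  refine ⟨X, fun x hx => ?_⟩
  obtain ⟨h3, h4⟩ := hX x hx
  refine ⟨?_, h4⟩
  have hx0 : (0 : ℝ) < x := by linarith
  have h5 : 0 < x ^ (4 : ℝ) := Real.rpow_pos_of_pos hx0 _
  rw [le_div_iff₀ h5] at h3
  have h6 : x ^ (4 : ℝ) = x ^ 4 := by
    rw [← Real.rpow_natCast]
    norm_num
  rwa [h6] at h3

/-- the third condition -/
theorem c3 {L p q z w s m B D mB : ℝ} (hL1 : 1536 ≤ L) (hp0 : 0 < p) (_hq0 : 0 < q)
    (e1 : q * (96 * L) ≤ p) (e2 : q * (1536 * L ^ 2) ≤ p) (hz0 : 0 ≤ z) (hz2 : z ≤ 2 * L)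
    (hD0 : 0 ≤ D) (hDq : D ≤ q) (hw0 : 0 ≤ w) (hwL : w ≤ L) (hs0 : 0 ≤ s) (hsq : s ≤ 2 * q)
    (hm0 : 0 ≤ m) (hsm' : m * s ≤ p * L) (hB0 : 0 < B) (hBl : L ^ 4 / 2 ≤ B)
    (hdiv : mB ≤ m / B) : 8 * (z + 4) * (D + w * (mB + 1) * (8 * s)) ≤ p := by
  have hL0 : 0 < L := by linarith
  have hR : z + 4 ≤ 3 * L := by linarith
  have hR0 : 0 ≤ z + 4 := by linarith
  have t1 : 8 * (z + 4) * D ≤ p / 4 := by
    have h2 : 8 * (z + 4) * D ≤ 8 * (3 * L) * q := by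
      apply mul_le_mul _ hDq hD0 (by positivity)
      linarith
    linarith
  have hRw : (z + 4) * w ≤ 3 * L * L := mul_le_mul hR hwL hw0 (by positivity)
  have t3 : 64 * ((z + 4) * w) * s ≤ p / 4 := by
    have h2 : 64 * ((z + 4) * w) * s ≤ 64 * (3 * L * L) * (2 * q) := by
      apply mul_le_mul _ hsq hs0 (by positivity)
      linarith
    have h4 : 64 * (3 * L * L) * (2 * q) = q * (1536 * L ^ 2) / 4 := by ring
    linarith
  have t2 : 64 * ((z + 4) * w) * ((m * s) / B) ≤ p / 4 := by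
    have h2 : (m * s) / B ≤ 2 * p / L ^ 3 := by
      rw [div_le_iff₀ hB0]
      have h3 : p * L = 2 * p / L ^ 3 * (L ^ 4 / 2) := by
        field_simp
      calc m * s ≤ p * L := hsm'
        _ = 2 * p / L ^ 3 * (L ^ 4 / 2) := h3
        _ ≤ 2 * p / L ^ 3 * B := mul_le_mul_of_nonneg_left hBl (by positivity)
    have h4 : 64 * ((z + 4) * w) * ((m * s) / B) ≤ 64 * (3 * L * L) * (2 * p / L ^ 3) := by
      apply mul_le_mul _ h2 (by positivity) (by positivity)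
      linarith
    have h5 : 64 * (3 * L * L) * (2 * p / L ^ 3) = 384 * p / L := by
      field_simp
      ring
    rw [h5] at h4
    refine h4.trans ?_
    rw [div_le_div_iff₀ hL0 (by norm_num)]
    nlinarith
  have hws : 0 ≤ 64 * ((z + 4) * w) * s := by positivity
  have h9 := mul_le_mul_of_nonneg_left hdiv hws
  have h10 : 64 * ((z + 4) * w) * s * (m / B) = 64 * ((z + 4) * w) * ((m * s) / B) := by ring
  have h11 : 8 * (z + 4) * (D + w * (mB + 1) * (8 * s)) =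
      8 * (z + 4) * D + 64 * ((z + 4) * w) * s * mB + 64 * ((z + 4) * w) * s := by ring
  rw [h10] at h9
  rw [h11]
  linarith

/-- the second condition -/
theorem c2 {L M q p B D ε : ℝ} (w : ℕ) (hL0 : 0 < L) (hM : M = Real.log L) (hM0 : 0 < M)
    (hB0 : 0 ≤ B) (hBu : B ≤ L ^ 4) (hwu : (w : ℝ) ≤ 64 * (ε / 512) * (L / M) + 1)
    (hq0 : 0 < q) (hD0 : 0 ≤ D) (hDq : D ≤ q) (hLe : 1536 * L ^ 4 ≤ Real.exp (ε / 2 * L))
    (hqp : q * Real.exp (ε * L) = p) : 8 * B ^ w * D ≤ p := by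
  have hE2 : Real.exp (ε / 2 * L) * Real.exp (ε / 2 * L) = Real.exp (ε * L) := by
    rw [← Real.exp_add]
    congr 1
    ring
  have h3 : Real.exp M = L := by rw [hM, Real.exp_log hL0]
  have h4 : L ^ 4 = Real.exp (4 * M) := by
    rw [← h3, ← Real.exp_nat_mul]
    norm_num
  have h2 : B ^ w ≤ Real.exp (ε / 2 * L) * L ^ 4 := by
    calc B ^ w ≤ (L ^ 4) ^ w := pow_le_pow_left₀ hB0 hBu w
      _ = Real.exp (w * (4 * M)) := by rw [h4, ← Real.exp_nat_mul]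
      _ ≤ Real.exp (ε / 2 * L + 4 * M) := by
          apply Real.exp_le_exp.2
          have h5 : (w : ℝ) * (4 * M) ≤ (64 * (ε / 512) * (L / M) + 1) * (4 * M) :=
            mul_le_mul_of_nonneg_right hwu (by positivity)
          have h6 : (64 * (ε / 512) * (L / M) + 1) * (4 * M) = ε / 2 * L + 4 * M := by
            field_simp
            ring
          rw [h6] at h5
          exact h5
      _ = _ := by rw [Real.exp_add, h4]
  calc 8 * B ^ w * D ≤ 8 * (Real.exp (ε / 2 * L) * L ^ 4) * q := by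
        apply mul_le_mul _ hDq hD0 (by positivity)
        exact mul_le_mul_of_nonneg_left h2 (by norm_num)
    _ = q * (Real.exp (ε / 2 * L) * (8 * L ^ 4)) := by ring
    _ ≤ q * (Real.exp (ε / 2 * L) * Real.exp (ε / 2 * L)) := by
        apply mul_le_mul_of_nonneg_left _ hq0.le
        apply mul_le_mul_of_nonneg_left _ (Real.exp_pos _).le
        have : 0 ≤ L ^ 4 := by positivity
        linarith
    _ = p := by rw [hE2, hqp]

/-- the number of digits -/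
theorem size_le {p z : ℕ} {L : ℝ} (hz : z = Nat.size p) (hp1n : 0 < p) (hL : L = Real.log p)
    (hL1 : 1536 ≤ L) : (z : ℝ) ≤ 2 * L := by
  have hz1 : 1 ≤ z := by rw [hz]; exact Nat.size_pos.2 hp1n
  have h2 : 2 ^ (z - 1) ≤ p := by
    rw [← Nat.lt_size, ← hz]
    omega
  have h3 : ((2 : ℝ)) ^ (z - 1) ≤ p := by exact_mod_cast h2
  have h4 : ((z - 1 : ℕ) : ℝ) * Real.log 2 ≤ L := by
    rw [hL, ← Real.log_pow]
    exact Real.log_le_log (by positivity) h3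
  have h5 : ((z - 1 : ℕ) : ℝ) = (z : ℝ) - 1 := by
    rw [Nat.cast_sub hz1, Nat.cast_one]
  rw [h5] at h4
  have h6 := Real.log_two_gt_d9
  have h7 : (1 : ℝ) ≤ z := by exact_mod_cast hz1
  nlinarith

/-- the logarithm of the size -/
theorem clog_le {S s : ℕ} (hS2 : 2 ≤ S) (hs : s = Nat.clog 2 S) :
    (s : ℝ) ≤ Real.logb 2 S + 1 := by
  have hS0 : (0 : ℝ) < S := by
    have : (2 : ℝ) ≤ S := by exact_mod_cast hS2
    linarith
  have hs1 : 1 ≤ s := by rw [hs]; exact Nat.clog_pos one_lt_two hS2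
  have h2 : 2 ^ (s - 1) < S := by
    rw [hs]
    exact Nat.pow_pred_clog_lt_self one_lt_two hS2
  have h3 : (2 : ℝ) ^ (s - 1) ≤ S := by exact_mod_cast h2.le
  have h4 : ((s - 1 : ℕ) : ℝ) ≤ Real.logb 2 S := by
    rw [Real.le_logb_iff_rpow_le (by norm_num) hS0, Real.rpow_natCast]
    exact h3
  rw [Nat.cast_sub hs1, Nat.cast_one] at h4
  linarith

/-- `s m` -/
theorem sm_le {L M p l m s ε : ℝ} (h0 : 0 < ε) (h1 : ε < 1) (hL0 : 0 < L) (hM1 : 1 ≤ M)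
    (hp0 : 0 < p) (hl1 : 1 ≤ l) (hsl : s ≤ l + 1) (hm0 : 0 ≤ m)
    (hm : m * l < ε / 512 * (p * (L / M))) :
    m * s ≤ 2 * (ε / 512) * (p * (L / M)) ∧ m * s ≤ p * L := by
  have hM0 : 0 < M := by linarith
  have hLM : L / M ≤ L := div_le_self hL0.le hM1
  have hLM0 : 0 < L / M := by positivity
  have hsm : m * s ≤ 2 * (ε / 512) * (p * (L / M)) := by
    have h2 : s ≤ 2 * l := by linarith
    calc m * s ≤ m * (2 * l) := mul_le_mul_of_nonneg_left h2 hm0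
      _ = 2 * (m * l) := by ring
      _ ≤ 2 * (ε / 512 * (p * (L / M))) := by linarith
      _ = _ := by ring
  refine ⟨hsm, hsm.trans ?_⟩
  have h2 : p * (L / M) ≤ p * L := mul_le_mul_of_nonneg_left hLM hp0.le
  have h4 : 0 ≤ p * (L / M) := by positivity
  have h5 : 2 * (ε / 512) ≤ 1 := by linarith
  exact (mul_le_of_le_one_left h4 h5).trans h2

/-- the choice of `w` and `B` -/
theorem wB {L M ε : ℝ} (h0 : 0 < ε) (h1 : ε < 1) (hL1 : 1536 ≤ L) (hM1 : 1 ≤ M) :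
    ∃ w B : ℕ, 1 ≤ w ∧ 64 * (ε / 512) * (L / M) ≤ w ∧
      (w : ℝ) ≤ 64 * (ε / 512) * (L / M) + 1 ∧ (w : ℝ) ≤ L ∧ 1 ≤ B ∧ (B : ℝ) ≤ L ^ 4 ∧
      L ^ 4 / 2 ≤ B := by
  have hL0 : 0 < L := by linarith
  have hM0 : 0 < M := by linarith
  have hLM : L / M ≤ L := div_le_self hL0.le hM1
  have hLM0 : 0 < L / M := by positivity
  have hwx : 0 < 64 * (ε / 512) * (L / M) := by positivity
  have hwu : (⌈64 * (ε / 512) * (L / M)⌉₊ : ℝ) ≤ 64 * (ε / 512) * (L / M) + 1 :=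
    (Nat.ceil_lt_add_one hwx.le).le
  have hL4' : L ≤ L ^ 4 := le_self_pow₀ (by linarith) (by norm_num)
  refine ⟨⌈64 * (ε / 512) * (L / M)⌉₊, ⌊L ^ 4⌋₊, Nat.one_le_ceil_iff.2 hwx, Nat.le_ceil _, hwu,
    ?_, ?_, Nat.floor_le (by positivity), ?_⟩
  · have : 64 * (ε / 512) * (L / M) ≤ 64 * (1 / 512) * L := by
      apply mul_le_mul _ hLM hLM0.le (by norm_num)
      linarith
    linarith
  · exact Nat.le_floor (by rw [Nat.cast_one]; linarith)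
  · have := Nat.lt_floor_add_one (L ^ 4)
    linarith

/-- the main choice -/
theorem core {ε L M q : ℝ} {p D z m S : ℕ} (h0 : 0 < ε) (h1 : ε < 1) (hp0 : (0 : ℝ) < p)
    (hL1 : 1536 ≤ L) (hLe : 1536 * L ^ 4 ≤ Real.exp (ε / 2 * L)) (hq0 : 0 < q) (hq1 : 1 ≤ q)
    (hqp : q * Real.exp (ε * L) = p) (e1 : q * (96 * L) ≤ p) (e2 : q * (1536 * L ^ 2) ≤ p)
    (hD1 : 1 ≤ D) (hDq : (D : ℝ) ≤ q) (hqD : q < D + 1) (hz2 : (z : ℝ) ≤ 2 * L)
    (hM : M = Real.log L) (hS2 : 2 ≤ S) (hSq : (S : ℝ) < 2 ^ q)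
    (hm : (m : ℝ) * Real.logb 2 S < ε / 512 * (p * L / M)) :
    ∃ s w B R : ℕ, 1 ≤ s ∧ S ≤ 2 ^ s ∧ 1 ≤ w ∧ 1 ≤ B ∧ 32 * m * s ≤ w * p ∧
      8 * B ^ w * D ≤ p ∧ 8 * R * (D + w * (m / B + 1) * (8 * s)) ≤ p ∧
      s + D * z < R * D := by
  have hL0 : 0 < L := by linarith
  have hSr : (2 : ℝ) ≤ S := by exact_mod_cast hS2
  have hS0 : (0 : ℝ) < S := by linarith
  obtain ⟨l, hl⟩ : ∃ l : ℝ, l = Real.logb 2 S := ⟨_, rfl⟩
  have hl1 : 1 ≤ l := by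
    rw [hl, Real.le_logb_iff_rpow_le (by norm_num) hS0, Real.rpow_one]
    exact hSr
  have hlq : l < q := by
    rw [hl, Real.logb_lt_iff_lt_rpow (by norm_num) hS0]
    exact hSq
  obtain ⟨s, hs⟩ : ∃ s : ℕ, s = Nat.clog 2 S := ⟨_, rfl⟩
  have hs1 : 1 ≤ s := by rw [hs]; exact Nat.clog_pos one_lt_two hS2
  have hsS : S ≤ 2 ^ s := by rw [hs]; exact Nat.le_pow_clog one_lt_two S
  have hsl : (s : ℝ) ≤ l + 1 := by rw [hl]; exact clog_le hS2 hs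
  have hs0 : (0 : ℝ) ≤ s := Nat.cast_nonneg s
  have hm0 : (0 : ℝ) ≤ m := Nat.cast_nonneg m
  rw [← hl] at hm
  have hM1 : 1 ≤ M := by
    rw [hM, Real.le_log_iff_exp_le hL0]
    have := Real.exp_one_lt_d9
    linarith
  have hM0 : 0 < M := by linarith
  have hme : (p : ℝ) * L / M = p * (L / M) := by ring
  rw [hme] at hm
  obtain ⟨w, B, hw1, hwl, hwu, hwL, hB1, hBu, hBl⟩ := wB h0 h1 hL1 hM1
  have hw0 : (0 : ℝ) ≤ w := Nat.cast_nonneg w
  have hB0 : (0 : ℝ) < B := by exact_mod_cast hB1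
  obtain ⟨hsm, hsm'⟩ := sm_le h0 h1 hL0 hM1 hp0 hl1 hsl hm0 hm
  have hsq : (s : ℝ) ≤ 2 * q := by linarith
  have hD0 : (0 : ℝ) ≤ D := Nat.cast_nonneg D
  have hz0 : (0 : ℝ) ≤ z := Nat.cast_nonneg z
  refine ⟨s, w, B, z + 4, hs1, hsS, hw1, hB1, ?_, ?_, ?_, ?_⟩
  · -- c1
    have h2 : (32 : ℝ) * m * s ≤ w * p := by
      calc (32 : ℝ) * m * s = 32 * (m * s) := by ring
        _ ≤ 32 * (2 * (ε / 512) * (p * (L / M))) := mul_le_mul_of_nonneg_left hsm (by norm_num)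
        _ = (64 * (ε / 512) * (L / M)) * p := by ring
        _ ≤ w * p := mul_le_mul_of_nonneg_right hwl hp0.le
    exact_mod_cast h2
  · -- c2
    have h7 := c2 (D := D) w hL0 hM hM0 hB0.le hBu hwu hq0 hD0 hDq hLe hqp
    exact_mod_cast h7
  · -- c3
    have hdiv : ((m / B : ℕ) : ℝ) ≤ (m : ℝ) / B := Nat.cast_div_le
    have h8 := c3 hL1 hp0 hq0 e1 e2 hz0 hz2 hD0 hDq hw0 hwL hs0 hsq hm0 hsm' hB0 hBl hdiv
    exact_mod_cast h8
  · -- c4
    have h2 : (s : ℝ) < D + 2 := by linarith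
    have h3 : s < D + 2 := by exact_mod_cast h2
    have h4 : (z + 4) * D = D * z + 4 * D := by ring
    rw [h4]
    omega

end Asym

/-- [ASYM] -/
theorem asym (ε : ℝ) (h0 : 0 < ε) (h1 : ε < 1) :
    ∃ δ > (0 : ℝ), ∃ p0 : ℕ, ∀ p ≥ p0, ∀ D : ℕ, D = ⌊(p : ℝ) ^ (1 - ε)⌋₊ →
      1 ≤ D ∧ D * Nat.size p ≤ p ∧
      ∀ m S : ℕ, 2 ≤ S → (S : ℝ) < 2 ^ ((p : ℝ) ^ (1 - ε)) →
        (m : ℝ) * Real.logb 2 S < δ * (p * Real.log p / Real.log (Real.log p)) →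
        ∃ s w B R : ℕ, 1 ≤ s ∧ S ≤ 2 ^ s ∧ 1 ≤ w ∧ 1 ≤ B ∧ 32 * m * s ≤ w * p ∧
          8 * B ^ w * D ≤ p ∧ 8 * R * (D + w * (m / B + 1) * (8 * s)) ≤ p ∧
          s + D * Nat.size p < R * D := by
  obtain ⟨X, hX⟩ := Asym.ev h0
  refine ⟨ε / 512, by positivity, ⌈Real.exp X⌉₊, fun p hp D hD => ?_⟩
  have hpX : Real.exp X ≤ p := (Nat.le_ceil _).trans (by exact_mod_cast hp)
  have hp0 : (0 : ℝ) < p := (Real.exp_pos _).trans_le hpX
  obtain ⟨L, hL⟩ : ∃ L : ℝ, L = Real.log p := ⟨_, rfl⟩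
  have hXL : X ≤ L := by rw [hL, Real.le_log_iff_exp_le hp0]; exact hpX
  obtain ⟨hLe, hL1⟩ := hX L hXL
  have hL0 : 0 < L := by linarith
  have hpe : (p : ℝ) = Real.exp L := by rw [hL, Real.exp_log hp0]
  have hp1 : (1 : ℝ) ≤ p := by rw [hpe]; exact Real.one_le_exp hL0.le
  have hp1n : 0 < p := by exact_mod_cast hp0
  obtain ⟨q, hq⟩ : ∃ q : ℝ, q = (p : ℝ) ^ (1 - ε) := ⟨_, rfl⟩
  have hqe : q = Real.exp ((1 - ε) * L) := by
    rw [hq, Real.rpow_def_of_pos hp0, ← hL, mul_comm]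
  have hqp : q * Real.exp (ε * L) = p := by
    rw [hqe, hpe, ← Real.exp_add]
    congr 1
    ring
  have hq0 : 0 < q := by rw [hqe]; exact Real.exp_pos _
  have hq1 : 1 ≤ q := by rw [hq]; exact Real.one_le_rpow hp1 (by linarith)
  have hE : Real.exp (ε / 2 * L) ≤ Real.exp (ε * L) := by
    apply Real.exp_le_exp.2
    exact mul_le_mul_of_nonneg_right (by linarith) hL0.le
  have hL4 : L ≤ L ^ 4 := le_self_pow₀ (by linarith) (by norm_num)
  have hL24 : L ^ 2 ≤ L ^ 4 := pow_le_pow_right₀ (by linarith) (by norm_num)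
  have hqE : ∀ c : ℝ, c ≤ 1536 * L ^ 4 → q * c ≤ p := by
    intro c hc
    calc q * c ≤ q * Real.exp (ε * L) :=
          mul_le_mul_of_nonneg_left (hc.trans (hLe.trans hE)) hq0.le
      _ = p := hqp
  rw [← hq] at hD
  have hDq : (D : ℝ) ≤ q := by rw [hD]; exact Nat.floor_le hq0.le
  have hqD : q < D + 1 := by rw [hD]; exact Nat.lt_floor_add_one q
  have hD1 : 1 ≤ D := by
    rw [hD]
    exact Nat.le_floor (by rw [Nat.cast_one]; exact hq1)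
  obtain ⟨z, hz⟩ : ∃ z : ℕ, z = Nat.size p := ⟨_, rfl⟩
  have hz2 : (z : ℝ) ≤ 2 * L := Asym.size_le hz hp1n hL hL1
  have hz0 : (0 : ℝ) ≤ z := Nat.cast_nonneg z
  rw [← hz]
  refine ⟨hD1, ?_, ?_⟩
  · have h2 : (D : ℝ) * z ≤ p := by
      calc (D : ℝ) * z ≤ q * (2 * L) := mul_le_mul hDq hz2 hz0 hq0.le
        _ ≤ p := hqE _ (by linarith)
    exact_mod_cast h2
  intro m S hS2 hSq hm
  rw [← hq] at hSq
  rw [← hL] at hm
  exact Asym.core h0 h1 hp0 hL1 hLe hq0 hq1 hqp (hqE _ (by linarith)) (hqE _ (by linarith)) hD1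
    hDq hqD hz2 rfl hS2 hSq hm

end Vale.Agent.P336W
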