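import Mathlib

/-!
# P336, row [ASYM2]: the choice of the parameters
-/

open Finset

namespace Vale.Agent.P336W

namespace Asym2

theorem ev {ε : ℝ} (h0 : 0 < ε) (Y : ℝ) :
    ∃ X : ℝ, ∀ x : ℝ, X ≤ x → 1536 * x ^ 4 ≤ Real.exp (ε / 2 * x) ∧ 1536 ≤ x ∧ Y ≤ x := by
  have h1 := tendsto_exp_mul_div_rpow_atTop 4 (ε / 2) (by positivity)
  have h2 := h1.eventually_ge_atTop 1536
  obtain ⟨X, hX⟩ := Filter.eventually_atTop.1
    ((h2.and (Filter.eventually_ge_atTop 1536)).and (Filter.eventually_ge_atTop Y))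
  refine ⟨X, fun x hx => ?_⟩
  obtain ⟨⟨h3, h4⟩, hY⟩ := hX x hx
  refine ⟨?_, h4, hY⟩
  have hx0 : (0 : ℝ) < x := by linarith
  have h5 : 0 < x ^ (4 : ℝ) := Real.rpow_pos_of_pos hx0 _
  rw [le_div_iff₀ h5] at h3
  have h6 : x ^ (4 : ℝ) = x ^ 4 := by
    rw [← Real.rpow_natCast]
    norm_num
  rwa [h6] at h3

/-- the number of digits -/
theorem size_le {p z : ℕ} {L : ℝ} (hz : z = Nat.size p) (hp1n : 0 < p) (hL : L = Real.log p)
    (hL1 : 1536 ≤ L) : (z : ℝ) ≤ 2 * L := by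
  have hz1 : 1 ≤ z := by rw [hz]; exact Nat.size_pos.2 hp1n
  have h2 : 2 ^ (z - 1) ≤ p := by
    rw [← Nat.lt_size, ← hz]
    omega
  have h3 : ((2 : ℝ)) ^ (z - 1) ≤ p := by exact_mod_cast h2
  have h4 : ((z - 1 : ℕ) : ℝ) * Real.log 2 ≤ L := by
    rw [hL, ← Real.log_pow]
    exact Real.log_le_log (by positivity) h3
  have h5 : ((z - 1 : ℕ) : ℝ) = (z : ℝ) - 1 := by
    rw [Nat.cast_sub hz1, Nat.cast_one]
  rw [h5] at h4
  have h6 := Real.log_two_gt_d9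
  have h7 : (1 : ℝ) ≤ z := by exact_mod_cast hz1
  nlinarith

/-- the logarithm of the size -/
theorem clog_le {S s : ℕ} (hS2 : 2 ≤ S) (hs : s = Nat.clog 2 S) :
    (s : ℝ) ≤ Real.logb 2 S + 1 := by
  have hS0 : (0 : ℝ) < S := by
    have : (2 : ℝ) ≤ S := by exact_mod_cast hS2
    linarith
  have hs1 : 1 ≤ s := by rw [hs]; exact Nat.clog_pos one_lt_two hS2
  have h2 : 2 ^ (s - 1) < S := by
    rw [hs]
    exact Nat.pow_pred_clog_lt_self one_lt_two hS2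
  have h3 : (2 : ℝ) ^ (s - 1) ≤ S := by exact_mod_cast h2.le
  have h4 : ((s - 1 : ℕ) : ℝ) ≤ Real.logb 2 S := by
    rw [Real.le_logb_iff_rpow_le (by norm_num) hS0, Real.rpow_natCast]
    exact h3
  rw [Nat.cast_sub hs1, Nat.cast_one] at h4
  linarith

/-- the fourth condition -/
theorem c4 {L ε M q g p : ℝ} (w R : ℕ) (h0 : 0 < ε) (h1 : ε < 1) (hL : 216 / ε ^ 2 ≤ L)
    (hR : (R : ℝ) ≤ 17 / ε) (hw : (w : ℝ) ≤ 64 * (ε / (512 * R)) * L + 1) (hR0 : 0 < (R : ℝ))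
    (hq0 : 0 < q) (hg : g = Real.exp (ε / 2 * L)) (hM : M ≤ 2 * (q * g)) (hp : q * g * g = p) :
    4 * M * (2 * 4 ^ w) ^ R ≤ p := by
  have hg0 : 0 < g := by rw [hg]; exact Real.exp_pos _
  have e1 : (2 * 4 ^ w : ℝ) ^ R ≤ Real.exp ((2 * w + 1) * R) := by
    have e2 : (2 * 4 ^ w : ℝ) ≤ Real.exp (2 * w + 1) := by
      have e3 : (2 * 4 ^ w : ℝ) = 2 ^ (2 * w + 1) := by
        rw [pow_succ, pow_mul]
        norm_num
        ring
      rw [e3]
      have e4 : (2 : ℝ) ≤ Real.exp 1 := by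
        have := Real.exp_one_gt_d9
        linarith
      calc (2 : ℝ) ^ (2 * w + 1) ≤ (Real.exp 1) ^ (2 * w + 1) :=
            pow_le_pow_left₀ (by norm_num) e4 _
        _ = Real.exp (2 * w + 1) := by
            rw [← Real.exp_nat_mul]
            congr 1
            push_cast
            ring
    calc (2 * 4 ^ w : ℝ) ^ R ≤ (Real.exp (2 * w + 1)) ^ R :=
          pow_le_pow_left₀ (by positivity) e2 _
      _ = Real.exp ((2 * w + 1) * R) := by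
          rw [← Real.exp_nat_mul]
          congr 1
          ring
  have e5 : (2 * (w : ℝ) + 1) * R ≤ ε / 4 * L + 3 * R := by
    have e6 : (2 * (w : ℝ) + 1) * R ≤ (2 * (64 * (ε / (512 * R)) * L + 1) + 1) * R :=
      mul_le_mul_of_nonneg_right (by linarith) hR0.le
    refine e6.trans (le_of_eq ?_)
    field_simp
    ring
  have e7 : 3 * (R : ℝ) + 3 ≤ ε / 4 * L := by
    have e8 : 3 * (R : ℝ) + 3 ≤ 54 / ε := by
      have : (3 : ℝ) ≤ 3 / ε := by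
        rw [le_div_iff₀ h0]
        linarith
      have h9 : 3 * (17 / ε) + 3 / ε = 54 / ε := by ring
      linarith
    have e9 : ε / 4 * (216 / ε ^ 2) = 54 / ε := by
      field_simp
      norm_num
    have e10 : ε / 4 * (216 / ε ^ 2) ≤ ε / 4 * L :=
      mul_le_mul_of_nonneg_left hL (by positivity)
    linarith
  have e11 : (8 : ℝ) ≤ Real.exp 3 := by
    have e4 : (2 : ℝ) ≤ Real.exp 1 := by
      have := Real.exp_one_gt_d9
      linarith
    calc (8 : ℝ) = 2 ^ 3 := by norm_num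
      _ ≤ (Real.exp 1) ^ 3 := pow_le_pow_left₀ (by norm_num) e4 _
      _ = Real.exp 3 := by
          rw [← Real.exp_nat_mul]
          norm_num
  have e12 : 8 * (2 * 4 ^ w : ℝ) ^ R ≤ g := by
    calc 8 * (2 * 4 ^ w : ℝ) ^ R ≤ Real.exp 3 * Real.exp ((2 * w + 1) * R) :=
          mul_le_mul e11 e1 (by positivity) (Real.exp_pos _).le
      _ = Real.exp (3 + (2 * w + 1) * R) := by rw [Real.exp_add]
      _ ≤ g := by
          rw [hg]
          apply Real.exp_le_exp.2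
          have : ε / 2 * L = ε / 4 * L + ε / 4 * L := by ring
          linarith
  calc 4 * M * (2 * 4 ^ w) ^ R ≤ 4 * (2 * (q * g)) * (2 * 4 ^ w) ^ R := by
        apply mul_le_mul_of_nonneg_right _ (by positivity)
        linarith
    _ = q * g * (8 * (2 * 4 ^ w) ^ R) := by ring
    _ ≤ q * g * g := mul_le_mul_of_nonneg_left e12 (by positivity)
    _ = p := hp

/-- lower bound for a binomial coefficient -/
theorem choose_ge {M h : ℕ} {g : ℝ} (hg : 0 ≤ g) (hh : 1 ≤ h) (hM : g * h + h ≤ M) :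
    g ^ h ≤ (M.choose h : ℝ) := by
  have hh0 : (0 : ℝ) < h := by exact_mod_cast hh
  have hhM : h ≤ M := by
    have : (h : ℝ) ≤ M := by
      have := mul_nonneg hg hh0.le
      linarith
    exact_mod_cast this
  have e1 : ((M + 1 - h : ℕ) : ℝ) = (M : ℝ) + 1 - h := by
    rw [Nat.cast_sub (by omega)]
    push_cast
    ring
  have e2 : (M + 1 - h) ^ h ≤ h.factorial * M.choose h := by
    rw [← Nat.descFactorial_eq_factorial_mul_choose]
    exact Nat.pow_sub_le_descFactorial M h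
  have e3 : (M + 1 - h) ^ h ≤ h ^ h * M.choose h :=
    e2.trans (Nat.mul_le_mul_right _ (Nat.factorial_le_pow h))
  have e4 : ((M + 1 - h : ℕ) : ℝ) ^ h ≤ (h : ℝ) ^ h * M.choose h := by exact_mod_cast e3
  rw [e1] at e4
  have e5 : (g * h) ^ h ≤ ((M : ℝ) + 1 - h) ^ h :=
    pow_le_pow_left₀ (mul_nonneg hg hh0.le) (by linarith) _
  have e6 : g ^ h * (h : ℝ) ^ h ≤ (M.choose h : ℝ) * (h : ℝ) ^ h := by
    rw [← mul_pow]
    linarith
  exact le_of_mul_le_mul_right e6 (by positivity)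

/-- the last condition -/
theorem c5 {L ε q g : ℝ} {p D z M h R s : ℕ} (h0 : 0 < ε) (hL1 : 1536 ≤ L)
    (hpe : (p : ℝ) = Real.exp L) (hp0 : 0 < p) (hz : z = Nat.size p) (hD2 : 2 ≤ D)
    (hDq : (D : ℝ) ≤ q) (hg1 : 2 ≤ g) (hg : g = Real.exp (ε / 2 * L)) (hM : q * g ≤ M)
    (hh : h = D / 2) (hR : 16 / ε ≤ R) (hs : s < D + 2) :
    2 ^ (s + D * z) < (M.choose h) ^ R := by
  have hq0 : 0 < q := by
    have : (2 : ℝ) ≤ D := by exact_mod_cast hD2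
    linarith
  have hh1 : 1 ≤ h := by omega
  have hh2 : 2 * (h : ℝ) ≤ D := by
    have : 2 * h ≤ D := by omega
    exact_mod_cast this
  have hh3 : (D : ℝ) ≤ 4 * h := by
    have : D ≤ 4 * h := by omega
    exact_mod_cast this
  have hh0 : (0 : ℝ) ≤ h := Nat.cast_nonneg h
  have e1 : g ^ h ≤ (M.choose h : ℝ) := by
    apply choose_ge (by linarith) hh1
    have e2 : g * h + h ≤ q * g := by
      have e3 : (g + 1) * (2 * (h : ℝ)) ≤ (g + 1) * q :=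
        mul_le_mul_of_nonneg_left (by linarith) (by linarith)
      nlinarith
    linarith
  -- the upper bound for the left side
  have hz1 : 1 ≤ z := by rw [hz]; exact Nat.size_pos.2 hp0
  have h2 : 2 ^ (z - 1) ≤ p := by
    rw [← Nat.lt_size, ← hz]
    omega
  have h3 : 2 ^ (z + 2) ≤ 8 * p := by
    have : 2 ^ (z + 2) = 8 * 2 ^ (z - 1) := by
      rw [show z + 2 = 3 + (z - 1) by omega, pow_add]
      norm_num
    omega
  have h4 : 2 ^ (s + D * z) ≤ (8 * p) ^ D := by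
    calc 2 ^ (s + D * z) ≤ 2 ^ ((z + 2) * D) := by
          apply Nat.pow_le_pow_right (by norm_num)
          have : (z + 2) * D = D * z + 2 * D := by ring
          omega
      _ = (2 ^ (z + 2)) ^ D := by rw [pow_mul]
      _ ≤ (8 * p) ^ D := Nat.pow_le_pow_left h3 D
  have h5 : (8 * (p : ℝ)) ^ D < ((p : ℝ) ^ 2) ^ D := by
    have hp8 : (8 : ℝ) < p := by
      rw [hpe]
      have := Real.add_one_le_exp L
      linarith
    apply pow_lt_pow_left₀ _ (by positivity) (by omega)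
    nlinarith
  have h6 : ((p : ℝ) ^ 2) ^ D ≤ (g ^ h) ^ R := by
    rw [← pow_mul, ← pow_mul, hpe, hg, ← Real.exp_nat_mul, ← Real.exp_nat_mul]
    apply Real.exp_le_exp.2
    push_cast
    have h7 : 2 * (D : ℝ) * L ≤ 8 * h * L := mul_le_mul_of_nonneg_right (by linarith) (by linarith)
    have h8 : 8 * (h : ℝ) * L ≤ h * R * (ε / 2 * L) := by
      have h9 : 16 ≤ R * ε := by
        rwa [div_le_iff₀ h0] at hR
      have h10 : 0 ≤ (h : ℝ) * L := mul_nonneg hh0 (by linarith)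
      nlinarith
    linarith
  have h7 : (g ^ h) ^ R ≤ (M.choose h : ℝ) ^ R := pow_le_pow_left₀ (by positivity) e1 R
  have h8 : ((2 : ℝ)) ^ (s + D * z) < (M.choose h : ℝ) ^ R := by
    calc ((2 : ℝ)) ^ (s + D * z) ≤ (8 * (p : ℝ)) ^ D := by exact_mod_cast h4
      _ < _ := h5
      _ ≤ _ := h6
      _ ≤ _ := h7
  exact_mod_cast h8

/-- the choice of the parameters for given `m`, `S` -/
theorem core {ε L q g : ℝ} {p D z m S R : ℕ} (h0 : 0 < ε) (h1 : ε < 1)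
    (hpe : (p : ℝ) = Real.exp L) (hp0 : 0 < p)
    (hL1 : 1536 ≤ L) (hLY : 216 / ε ^ 2 ≤ L) (hLe : 1536 * L ^ 4 ≤ g)
    (hg : g = Real.exp (ε / 2 * L)) (hqp : q * g * g = p) (hR1 : 16 / ε ≤ R)
    (hR2 : (R : ℝ) ≤ 17 / ε) (hD2 : 2 ≤ D) (hDq : (D : ℝ) ≤ q) (hqD : q < D + 1)
    (hz : z = Nat.size p) (hS2 : 2 ≤ S) (hSq : (S : ℝ) < 2 ^ q)
    (hm : (m : ℝ) * Real.logb 2 S < ε / (512 * R) * (p * L)) :
    ∃ s w M R h : ℕ, 1 ≤ s ∧ S ≤ 2 ^ s ∧ 1 ≤ w ∧ 32 * m * s ≤ w * p ∧ 2 * h ≤ D ∧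
      16 * w * s ≤ M ∧ 4 * M * (2 * 4 ^ w) ^ R ≤ p ∧ 2 ^ (s + D * z) < (M.choose h) ^ R := by
  have hL0 : 0 < L := by linarith
  have hpr0 : (0 : ℝ) < p := by exact_mod_cast hp0
  have hSr : (2 : ℝ) ≤ S := by exact_mod_cast hS2
  have hS0 : (0 : ℝ) < S := by linarith
  have hq2 : 2 ≤ q := by
    have : (2 : ℝ) ≤ D := by exact_mod_cast hD2
    linarith
  have hL4' : L ≤ L ^ 4 := le_self_pow₀ (by linarith) (by norm_num)
  have hgL : 1536 * L ≤ g := by linarith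
  have hR16 : 16 ≤ (R : ℝ) := by
    refine le_trans ?_ hR1
    rw [le_div_iff₀ h0]
    linarith
  have hR0 : 0 < (R : ℝ) := by linarith
  have hl1 : 1 ≤ Real.logb 2 S := by
    rw [Real.le_logb_iff_rpow_le (by norm_num) hS0, Real.rpow_one]
    exact hSr
  have hlq : Real.logb 2 S < q := by
    rw [Real.logb_lt_iff_lt_rpow (by norm_num) hS0]
    exact hSq
  obtain ⟨l, hl⟩ : ∃ l : ℝ, l = Real.logb 2 S := ⟨_, rfl⟩
  obtain ⟨s, hs⟩ : ∃ s : ℕ, s = Nat.clog 2 S := ⟨_, rfl⟩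
  have hs1 : 1 ≤ s := by rw [hs]; exact Nat.clog_pos one_lt_two hS2
  have hsS : S ≤ 2 ^ s := by rw [hs]; exact Nat.le_pow_clog one_lt_two S
  have hsl : (s : ℝ) ≤ l + 1 := by rw [hl]; exact clog_le hS2 hs
  rw [← hl] at hm hl1 hlq
  have hs0 : (0 : ℝ) ≤ s := Nat.cast_nonneg s
  have hm0 : (0 : ℝ) ≤ m := Nat.cast_nonneg m
  obtain ⟨δ, hδ⟩ : ∃ δ : ℝ, δ = ε / (512 * R) := ⟨_, rfl⟩
  have hδ0 : 0 < δ := by rw [hδ]; positivity
  have hδ1 : 64 * δ ≤ 1 := by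
    rw [hδ, mul_div_assoc', div_le_one (by positivity)]
    linarith
  have hδL : 64 * δ * L ≤ L := mul_le_of_le_one_left hL0.le hδ1
  have hδL0 : 0 < 64 * δ * L := by positivity
  obtain ⟨w, hw⟩ : ∃ w : ℕ, w = ⌈64 * δ * L⌉₊ := ⟨_, rfl⟩
  have hw1 : 1 ≤ w := by rw [hw]; exact Nat.one_le_ceil_iff.2 hδL0
  have hwl : 64 * δ * L ≤ w := by rw [hw]; exact Nat.le_ceil _
  have hwu : (w : ℝ) ≤ 64 * δ * L + 1 := by rw [hw]; exact (Nat.ceil_lt_add_one hδL0.le).le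
  have hw0 : (0 : ℝ) ≤ w := Nat.cast_nonneg w
  obtain ⟨M, hM⟩ : ∃ M : ℕ, M = ⌈q * g⌉₊ := ⟨_, rfl⟩
  have hqg0 : 0 ≤ q * g := by
    apply mul_nonneg (by linarith)
    linarith
  have hqg1 : 1 ≤ q * g := by nlinarith
  have hMl : q * g ≤ M := by rw [hM]; exact Nat.le_ceil _
  have hMu : (M : ℝ) ≤ 2 * (q * g) := by
    have : (M : ℝ) ≤ q * g + 1 := by rw [hM]; exact (Nat.ceil_lt_add_one hqg0).le
    linarith
  have hsm : (m : ℝ) * s ≤ 2 * δ * (p * L) := by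
    have h2 : (s : ℝ) ≤ 2 * l := by linarith
    calc (m : ℝ) * s ≤ m * (2 * l) := mul_le_mul_of_nonneg_left h2 hm0
      _ = 2 * (m * l) := by ring
      _ ≤ 2 * (ε / (512 * R) * (p * L)) := by linarith
      _ = _ := by rw [hδ]; ring
  refine ⟨s, w, M, R, D / 2, hs1, hsS, hw1, ?_, by omega, ?_, ?_, ?_⟩
  · have h2 : (32 : ℝ) * m * s ≤ w * p := by
      calc (32 : ℝ) * m * s = 32 * (m * s) := by ring
        _ ≤ 32 * (2 * δ * (p * L)) := mul_le_mul_of_nonneg_left hsm (by norm_num)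
        _ = (64 * δ * L) * p := by ring
        _ ≤ w * p := mul_le_mul_of_nonneg_right hwl hpr0.le
    exact_mod_cast h2
  · have h2 : (16 : ℝ) * w * s ≤ M := by
      have hsq : (s : ℝ) ≤ 2 * q := by linarith
      have hwL : (w : ℝ) ≤ 2 * L := by linarith
      calc (16 : ℝ) * w * s ≤ 16 * (2 * L) * (2 * q) := by
            apply mul_le_mul _ hsq hs0 (by positivity)
            linarith
        _ = q * (64 * L) := by ring
        _ ≤ q * g := mul_le_mul_of_nonneg_left (by linarith) (by linarith)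
        _ ≤ M := hMl
    exact_mod_cast h2
  · have h2 := c4 (M := (M : ℝ)) w R h0 h1 hLY hR2 (by rw [← hδ]; exact hwu) hR0
      (by linarith : (0 : ℝ) < q) hg hMu hqp
    exact_mod_cast h2
  · have h2 : (s : ℝ) < D + 2 := by linarith
    have h3 : s < D + 2 := by exact_mod_cast h2
    exact c5 h0 hL1 hpe hp0 hz hD2 hDq (by linarith) hg hMl rfl hR1 h3

end Asym2

/-- [ASYM2] -/
theorem asym2 (ε : ℝ) (h0 : 0 < ε) (h1 : ε < 1) :
    ∃ δ > (0 : ℝ), ∃ p0 : ℕ, ∀ p ≥ p0, ∀ D : ℕ, D = ⌊(p : ℝ) ^ (1 - ε)⌋₊ →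
      1 ≤ D ∧ D * Nat.size p ≤ p ∧
      ∀ m S : ℕ, 2 ≤ S → (S : ℝ) < 2 ^ ((p : ℝ) ^ (1 - ε)) →
        (m : ℝ) * Real.logb 2 S < δ * (p * Real.log p) →
        ∃ s w M R h : ℕ, 1 ≤ s ∧ S ≤ 2 ^ s ∧ 1 ≤ w ∧ 32 * m * s ≤ w * p ∧ 2 * h ≤ D ∧
          16 * w * s ≤ M ∧ 4 * M * (2 * 4 ^ w) ^ R ≤ p ∧
          2 ^ (s + D * Nat.size p) < (M.choose h) ^ R := by
  obtain ⟨X, hX⟩ := Asym2.ev h0 (max (216 / ε ^ 2) (1 / (1 - ε)))
  have hR1 : 16 / ε ≤ (⌈16 / ε⌉₊ : ℝ) := Nat.le_ceil _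
  have hR2 : (⌈16 / ε⌉₊ : ℝ) ≤ 17 / ε := by
    have h2 : (⌈16 / ε⌉₊ : ℝ) < 16 / ε + 1 := Nat.ceil_lt_add_one (by positivity)
    have h3 : 1 ≤ 1 / ε := by
      rw [le_div_iff₀ h0]
      linarith
    have h4 : 16 / ε + 1 / ε = 17 / ε := by ring
    linarith
  have hR0 : (0 : ℝ) < (⌈16 / ε⌉₊ : ℝ) := lt_of_lt_of_le (by positivity) hR1
  refine ⟨ε / (512 * (⌈16 / ε⌉₊ : ℝ)), by positivity, ⌈Real.exp X⌉₊, fun p hp D hD => ?_⟩
  have hpX : Real.exp X ≤ p := (Nat.le_ceil _).trans (by exact_mod_cast hp)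
  have hp0 : (0 : ℝ) < p := (Real.exp_pos _).trans_le hpX
  obtain ⟨L, hL⟩ : ∃ L : ℝ, L = Real.log p := ⟨_, rfl⟩
  have hXL : X ≤ L := by rw [hL, Real.le_log_iff_exp_le hp0]; exact hpX
  obtain ⟨hLe, hL1, hLY⟩ := hX L hXL
  have hLY1 : 216 / ε ^ 2 ≤ L := (le_max_left _ _).trans hLY
  have hLY2 : 1 / (1 - ε) ≤ L := (le_max_right _ _).trans hLY
  have hL0 : 0 < L := by linarith
  have hpe : (p : ℝ) = Real.exp L := by rw [hL, Real.exp_log hp0]
  have hp1n : 0 < p := by exact_mod_cast hp0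
  obtain ⟨q, hq⟩ : ∃ q : ℝ, q = (p : ℝ) ^ (1 - ε) := ⟨_, rfl⟩
  obtain ⟨g, hg⟩ : ∃ g : ℝ, g = Real.exp (ε / 2 * L) := ⟨_, rfl⟩
  have hqe : q = Real.exp ((1 - ε) * L) := by
    rw [hq, Real.rpow_def_of_pos hp0, ← hL, mul_comm]
  have hqp : q * g * g = p := by
    rw [hqe, hpe, hg, ← Real.exp_add, ← Real.exp_add]
    congr 1
    ring
  have hq0 : 0 < q := by rw [hqe]; exact Real.exp_pos _
  have hq2 : 2 ≤ q := by
    have h2 : 1 ≤ (1 - ε) * L := by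
      rw [div_le_iff₀ (by linarith)] at hLY2
      linarith
    have h3 := Real.exp_le_exp.2 h2
    have h4 := Real.exp_one_gt_d9
    rw [hqe]
    linarith
  have hL4 : L ≤ L ^ 4 := le_self_pow₀ (by linarith) (by norm_num)
  rw [← hg] at hLe
  have hg0 : 0 < g := by rw [hg]; exact Real.exp_pos _
  rw [← hq] at hD
  have hDq : (D : ℝ) ≤ q := by rw [hD]; exact Nat.floor_le hq0.le
  have hqD : q < D + 1 := by rw [hD]; exact Nat.lt_floor_add_one q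
  have hD2 : 2 ≤ D := by
    rw [hD]
    exact Nat.le_floor (by push_cast; exact hq2)
  obtain ⟨z, hz⟩ : ∃ z : ℕ, z = Nat.size p := ⟨_, rfl⟩
  have hz2 : (z : ℝ) ≤ 2 * L := Asym2.size_le hz hp1n hL hL1
  have hz0 : (0 : ℝ) ≤ z := Nat.cast_nonneg z
  rw [← hz]
  refine ⟨by omega, ?_, ?_⟩
  · have h2 : (D : ℝ) * z ≤ p := by
      calc (D : ℝ) * z ≤ q * (2 * L) := mul_le_mul hDq hz2 hz0 hq0.le
        _ ≤ q * (g * g) := by
            apply mul_le_mul_of_nonneg_left _ hq0.le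
            nlinarith
        _ = p := by rw [← hqp]; ring
    exact_mod_cast h2
  intro m S hS2 hSq hm
  rw [← hq] at hSq
  rw [← hL] at hm
  exact Asym2.core h0 h1 hpe hp1n hL1 hLY1 hLe hg hqp hR1 hR2 hD2 hDq hqD hz hS2 hSq hm

end Vale.Agent.P336W
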