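import Vale.Agent.P336W.Asym2

namespace Vale.Agent.P336W

theorem asym3 (ε : ℝ) (h0 : 0 < ε) (h1 : ε < 1) :
    ∃ δ > (0 : ℝ), ∃ p0 : ℕ, ∀ p ≥ p0, ∀ D : ℕ, D = ⌊(p : ℝ) ^ (1 - ε)⌋₊ →
      1 ≤ D ∧ D * Nat.size p ≤ p ∧
      (∀ m S : ℕ, 2 ≤ S → (S : ℝ) < 2 ^ ((p : ℝ) ^ (1 - ε)) →
        (m : ℝ) * Real.logb 2 S < δ * (p * Real.log p) →
        ∃ s w M R h : ℕ, 1 ≤ s ∧ S ≤ 2 ^ s ∧ 1 ≤ w ∧ 32 * m * s ≤ w * p ∧ 2 * h ≤ D ∧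
          16 * w * s ≤ M ∧ 4 * M * (2 * 4 ^ w) ^ R ≤ p ∧
          2 ^ (s + D * Nat.size p) < (M.choose h) ^ R) ∧
      (∀ I S : ℕ, 2 ≤ S → (S : ℝ) < 2 ^ ((p : ℝ) ^ (1 - ε)) →
        (I : ℝ) ≤ δ * (p * Real.log p) →
        ∃ s w M R h : ℕ, 1 ≤ s ∧ S ≤ 2 ^ s ∧ 1 ≤ w ∧ 4 * I ≤ w * p ∧ 2 * h ≤ D ∧
          16 * w * s ≤ M ∧ 4 * M * (2 * 4 ^ w) ^ R ≤ p ∧
          2 ^ (s + D * Nat.size p) < (M.choose h) ^ R) := by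
  obtain ⟨δ, hδ, p0, H⟩ := asym2 ε h0 h1
  refine ⟨δ, hδ, max p0 (max 2 ⌈Real.exp (2 / δ)⌉₊), fun p hp D hD => ?_⟩
  have hp0 : p0 ≤ p := le_trans (le_max_left _ _) hp
  have hp2 : 2 ≤ p := le_trans (le_trans (le_max_left _ _) (le_max_right _ _)) hp
  have hpe : Real.exp (2 / δ) ≤ p :=
    le_trans (Nat.le_ceil _)
      (by exact_mod_cast le_trans (le_trans (le_max_right _ _) (le_max_right _ _)) hp)
  obtain ⟨hD1, hsz, H⟩ := H p hp0 D hD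
  refine ⟨hD1, hsz, H, fun I S hS hS2 hI => ?_⟩
  have hpR : (2 : ℝ) ≤ p := by exact_mod_cast hp2
  have hp0R : (0 : ℝ) < p := by linarith
  have hSR : (2 : ℝ) ≤ S := by exact_mod_cast hS
  set ℓ := Real.logb 2 S with hℓ
  have hℓ1 : 1 ≤ ℓ := by
    rw [hℓ, Real.le_logb_iff_rpow_le (by norm_num) (by linarith)]
    simpa using hSR
  have hℓ0 : 0 < ℓ := by linarith
  have hℓp : ℓ < (p : ℝ) ^ (1 - ε) := by
    rw [hℓ, Real.logb_lt_iff_lt_rpow (by norm_num) (by linarith)]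
    exact hS2
  have hpow : (p : ℝ) ^ (1 - ε) ≤ p := by
    calc (p : ℝ) ^ (1 - ε) ≤ (p : ℝ) ^ (1 : ℝ) :=
          Real.rpow_le_rpow_of_exponent_le (by linarith) (by linarith)
      _ = p := Real.rpow_one _
  have hlog : 2 / δ ≤ Real.log p := by
    rw [Real.le_log_iff_exp_le hp0R]
    exact hpe
  have hlog2 : 2 ≤ δ * Real.log p := by
    rw [div_le_iff₀ hδ] at hlog
    linarith
  obtain ⟨m, hm⟩ : ∃ m : ℕ, m = ⌈(I : ℝ) / (8 * ℓ)⌉₊ := ⟨_, rfl⟩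
  have hm1 : (I : ℝ) / (8 * ℓ) ≤ m := by
    rw [hm]
    exact Nat.le_ceil _
  have hm2 : (m : ℝ) < (I : ℝ) / (8 * ℓ) + 1 := by
    rw [hm]
    exact Nat.ceil_lt_add_one (by positivity)
  have hm3 : (I : ℝ) ≤ 8 * (m * ℓ) := by
    rw [div_le_iff₀ (by positivity)] at hm1
    linarith
  have hm4 : (m : ℝ) * ℓ < I / 8 + ℓ := by
    have h3 : (m : ℝ) * ℓ < ((I : ℝ) / (8 * ℓ) + 1) * ℓ := mul_lt_mul_of_pos_right hm2 hℓ0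
    have h4 : ((I : ℝ) / (8 * ℓ) + 1) * ℓ = I / 8 + ℓ := by
      field_simp
    linarith
  have hmS : (m : ℝ) * ℓ < δ * (p * Real.log p) := by
    have h5 : (2 : ℝ) * p ≤ δ * (p * Real.log p) := by nlinarith
    linarith
  obtain ⟨s, w, M, R, h, hs, hSs, hw, c1, hh, c2, c3, c4⟩ := H m S hS hS2 hmS
  refine ⟨s, w, M, R, h, hs, hSs, hw, ?_, hh, c2, c3, c4⟩
  have hsℓ : ℓ ≤ s := by
    rw [hℓ, Real.logb_le_iff_le_rpow (by norm_num) (by linarith), Real.rpow_natCast]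
    exact_mod_cast hSs
  have h6 : ((4 * I : ℕ) : ℝ) ≤ ((32 * m * s : ℕ) : ℝ) := by
    push_cast
    have h7 : (m : ℝ) * ℓ ≤ m * s := mul_le_mul_of_nonneg_left hsℓ (Nat.cast_nonneg _)
    nlinarith
  exact le_trans (by exact_mod_cast h6) c1

end Vale.Agent.P336W
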