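import Vale.Agent.P336W.Asym3

namespace Vale.Agent.P336W

/-- The parameters for the version with blocks, from the second part of `asym3`. -/
theorem asym4 {ε δ : ℝ} (h1 : ε < 1) {p D : ℕ} (hp2 : 2 ≤ p)
    (hD : D = ⌊(p : ℝ) ^ (1 - ε)⌋₊)
    (H : ∀ I S : ℕ, 2 ≤ S → (S : ℝ) < 2 ^ ((p : ℝ) ^ (1 - ε)) →
        (I : ℝ) ≤ δ * (p * Real.log p) →
        ∃ s w M R h : ℕ, 1 ≤ s ∧ S ≤ 2 ^ s ∧ 1 ≤ w ∧ 4 * I ≤ w * p ∧ 2 * h ≤ D ∧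
          16 * w * s ≤ M ∧ 4 * M * (2 * 4 ^ w) ^ R ≤ p ∧
          2 ^ (s + D * Nat.size p) < (M.choose h) ^ R)
    (I t K : ℕ) (ht : (t : ℝ) < 2 ^ ((p : ℝ) ^ (1 - ε))) (hK : (K : ℝ) ≤ (p : ℝ) ^ (1 - ε))
    (hI : (I : ℝ) ≤ δ * (p * Real.log p)) :
    ∃ s w M R h : ℕ, t ≤ 2 ^ s ∧ 1 ≤ w ∧ 1 ≤ M ∧ 2 * I ≤ w * p ∧ 2 * h ≤ D ∧
      2 * w * K ≤ M ∧ 2 * M * (2 * 4 ^ w) ^ R ≤ p ∧
      2 ^ (s + D * Nat.size p) < (M.choose h) ^ R := by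
  have hpR : (1 : ℝ) < p := by exact_mod_cast (by omega : 1 < p)
  have hq1 : 1 < (p : ℝ) ^ (1 - ε) := Real.one_lt_rpow hpR (by linarith)
  obtain ⟨s0, hs0⟩ : ∃ s0 : ℕ, s0 = ⌈(p : ℝ) ^ (1 - ε)⌉₊ - 1 := ⟨_, rfl⟩
  have hceil : 2 ≤ ⌈(p : ℝ) ^ (1 - ε)⌉₊ := by
    have : 1 < ⌈(p : ℝ) ^ (1 - ε)⌉₊ := Nat.lt_ceil.2 (by exact_mod_cast hq1)
    omega
  have hs01 : 1 ≤ s0 := by omega
  have hs0lt : (s0 : ℝ) < (p : ℝ) ^ (1 - ε) := Nat.lt_ceil.1 (by omega)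
  have hKs : K ≤ s0 + 1 := by
    have h2 : (K : ℝ) ≤ (⌈(p : ℝ) ^ (1 - ε)⌉₊ : ℝ) := hK.trans (Nat.le_ceil _)
    have h3 : K ≤ ⌈(p : ℝ) ^ (1 - ε)⌉₊ := by exact_mod_cast h2
    omega
  have hS2 : 2 ≤ max (2 ^ s0) t := by
    refine le_trans ?_ (le_max_left _ _)
    calc 2 = 2 ^ 1 := by norm_num
      _ ≤ 2 ^ s0 := Nat.pow_le_pow_right (by norm_num) hs01
  have hSlt : ((max (2 ^ s0) t : ℕ) : ℝ) < 2 ^ ((p : ℝ) ^ (1 - ε)) := by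
    rw [Nat.cast_max]
    refine max_lt ?_ ht
    push_cast
    rw [← Real.rpow_natCast]
    exact Real.rpow_lt_rpow_of_exponent_lt (by norm_num) hs0lt
  obtain ⟨s, w, M, R, h, hs, hSs, hw, c1, hh, c2, c3, c4⟩ := H I (max (2 ^ s0) t) hS2 hSlt hI
  have hs0s : s0 ≤ s :=
    (Nat.pow_le_pow_iff_right (by norm_num : 1 < 2)).1 ((le_max_left _ _).trans hSs)
  have hKs2 : K ≤ 2 * s := by omega
  refine ⟨s, w, M, R, h, (le_max_right _ _).trans hSs, hw, ?_, ?_, hh, ?_, ?_, c4⟩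
  · have : 1 ≤ 16 * w * s := by
      have := Nat.mul_le_mul (Nat.mul_le_mul (le_refl 16) hw) hs
      omega
    omega
  · omega
  · calc 2 * w * K ≤ 2 * w * (2 * s) := Nat.mul_le_mul_left _ hKs2
      _ = 4 * (w * s) := by ring
      _ ≤ 16 * (w * s) := by omega
      _ = 16 * w * s := by ring
      _ ≤ M := c2
  · have h5 : 4 * M * (2 * 4 ^ w) ^ R = 2 * (2 * M * (2 * 4 ^ w) ^ R) := by ring
    omega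

end Vale.Agent.P336W
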