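import Vale.Agent.P336W.Defs

/-!
# P336, row CODE: distance of the code and popular syndromes
-/

open Finset

namespace Vale.Agent.P336W

/-- [CODE] distance -/
theorem code_dist {p D : ℕ} (hp : p.Prime) (u v : Fin p → Bool)
    (h : ∀ j < D, (∑ i : Fin p, if u i = true then (i : ℕ) ^ j else 0) ≡
      (∑ i : Fin p, if v i = true then (i : ℕ) ^ j else 0) [MOD p])
    (hd : (univ.filter fun i => u i ≠ v i).card ≤ D) : u = v := by
  have : Fact p.Prime := ⟨hp⟩
  by_contra hne
  obtain ⟨i₀, hi₀⟩ := Function.ne_iff.1 hne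
  set Δ := univ.filter fun i => u i ≠ v i with hΔ
  have hi₀Δ : i₀ ∈ Δ := by simp [hΔ, hi₀]
  let f : Fin p → ZMod p := fun i => ((i : ℕ) : ZMod p)
  have hf : Function.Injective f := by
    intro a b hab
    have h1 := (ZMod.natCast_eq_natCast_iff' _ _ _).1 hab
    rw [Nat.mod_eq_of_lt a.2, Nat.mod_eq_of_lt b.2] at h1
    exact Fin.ext h1
  let c : Fin p → ZMod p := fun i => (if u i = true then 1 else 0) - (if v i = true then 1 else 0)
  have hc : ∀ i, i ∉ Δ → c i = 0 := by
    intro i hi
    have h1 : u i = v i := by simpa [hΔ] using hi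
    simp [c, h1]
  have hc0 : c i₀ ≠ 0 := by
    have h1 : u i₀ ≠ v i₀ := hi₀
    simp only [c]
    cases hu : u i₀ <;> cases hv : v i₀ <;> simp_all
  have H : ∀ j < D, ∑ i, c i * f i ^ j = 0 := by
    intro j hj
    have h1 := (ZMod.natCast_eq_natCast_iff _ _ _).2 (h j hj)
    push_cast at h1
    have h2 : ∀ i, c i * f i ^ j =
        (if u i = true then f i ^ j else 0) - (if v i = true then f i ^ j else 0) := by
      intro i
      simp only [c, sub_mul, ite_mul, one_mul, zero_mul]
    simp_rw [h2, Finset.sum_sub_distrib]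
    rw [sub_eq_zero]
    exact h1
  let P : Polynomial (ZMod p) := ∏ a ∈ Δ.erase i₀, (Polynomial.X - Polynomial.C (f a))
  have hPd : P.natDegree < D := by
    have h1 : P.natDegree = (Δ.erase i₀).card := by
      simp only [P]
      rw [Polynomial.natDegree_prod_of_monic _ _ fun a _ => Polynomial.monic_X_sub_C _]
      simp
    rw [h1, Finset.card_erase_of_mem hi₀Δ]
    have h2 : 0 < Δ.card := Finset.card_pos.2 ⟨i₀, hi₀Δ⟩
    omega
  have hP : ∑ i, c i * P.eval (f i) = 0 := by
    simp_rw [Polynomial.eval_eq_sum_range' hPd, Finset.mul_sum]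
    rw [Finset.sum_comm]
    refine Finset.sum_eq_zero fun j hj => ?_
    have h1 := H j (Finset.mem_range.1 hj)
    calc ∑ i, c i * (P.coeff j * f i ^ j) = P.coeff j * ∑ i, c i * f i ^ j := by
          rw [Finset.mul_sum]
          exact Finset.sum_congr rfl fun i _ => by ring
      _ = 0 := by rw [h1, mul_zero]
  have hPi : ∑ i, c i * P.eval (f i) = c i₀ * P.eval (f i₀) := by
    refine Finset.sum_eq_single i₀ (fun i _ hi => ?_) (fun h => absurd (mem_univ _) h)
    by_cases hiΔ : i ∈ Δ
    · have h1 : P.eval (f i) = 0 := by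
        simp only [P, Polynomial.eval_prod]
        exact Finset.prod_eq_zero (Finset.mem_erase.2 ⟨hi, hiΔ⟩) (by simp)
      rw [h1, mul_zero]
    · rw [hc i hiΔ, zero_mul]
  have hPn : P.eval (f i₀) ≠ 0 := by
    simp only [P, Polynomial.eval_prod]
    refine Finset.prod_ne_zero_iff.2 fun a ha => ?_
    simp only [Polynomial.eval_sub, Polynomial.eval_X, Polynomial.eval_C]
    rw [sub_ne_zero]
    exact fun h => (Finset.ne_of_mem_erase ha) (hf h.symm)
  rw [hPi] at hP
  exact (mul_ne_zero hc0 hPn) hP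

theorem Code.sum_testBit (n k : ℕ) :
    ∑ l : Fin k, (if n.testBit l = true then 2 ^ (l : ℕ) else 0) = n % 2 ^ k := by
  rw [Fin.sum_univ_eq_sum_range (fun l => if n.testBit l = true then 2 ^ l else 0) k]
  induction k with
  | zero => simp [Nat.mod_one]
  | succ k ih =>
    rw [Finset.sum_range_succ, ih, Nat.mod_pow_succ, ← Nat.toNat_testBit]
    cases n.testBit k <;> simp

open Classical in
/-- [CODE] popular syndrome -/
theorem exists_popular {p D : ℕ} (hp : 0 < p) (E : Finset (Fin p)) (ρ : Fin p → Bool) :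
    ∃ y : Fin D × Fin (Nat.size p) → Bool, 2 ^ E.card ≤ p ^ D *
      (univ.filter fun x : Fin p → Bool =>
        (∀ i, i ∉ E → x i = ρ i) ∧ InCode p D (Sum.elim x y)).card := by
  let X : Finset (Fin p → Bool) := univ.filter fun x => ∀ i, i ∉ E → x i = ρ i
  let σ : (Fin p → Bool) → (Fin D → Fin p) := fun x j =>
    ⟨(∑ i : Fin p, if x i = true then (i : ℕ) ^ (j : ℕ) else 0) % p, Nat.mod_lt _ hp⟩
  have hX : 2 ^ E.card ≤ X.card := by
    have h1 : (univ : Finset (E → Bool)).card ≤ X.card := by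
      refine Finset.card_le_card_of_injOn
        (fun g i => if h : i ∈ E then g ⟨i, h⟩ else ρ i) ?_ ?_
      · intro g _
        simp only [X, Finset.coe_filter, Finset.mem_univ, true_and, Set.mem_ofPred_eq]
        intro i hi
        simp [hi]
      · intro g _ g' _ hgg
        funext i
        have h2 := congrFun hgg i.1
        simpa using h2
    simpa using h1
  have hfib : ∑ s : Fin D → Fin p, (X.filter fun x => σ x = s).card = X.card :=
    (Finset.card_eq_sum_card_fiberwise (f := σ) (s := X) (t := univ)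
      (fun x _ => Finset.mem_coe.2 (Finset.mem_univ _))).symm
  obtain ⟨s, -, hs⟩ : ∃ s ∈ (univ : Finset (Fin D → Fin p)),
      2 ^ E.card ≤ p ^ D * (X.filter fun x => σ x = s).card := by
    refine Finset.exists_le_of_sum_le ⟨fun _ => ⟨0, hp⟩, Finset.mem_univ _⟩ ?_
    rw [← Finset.mul_sum, hfib]
    simp only [Finset.sum_const, Finset.card_univ, Fintype.card_fun, Fintype.card_fin,
      smul_eq_mul]
    gcongr
  refine ⟨fun jl => (s jl.1 : ℕ).testBit jl.2, hs.trans ?_⟩
  gcongr
  intro x hx
  simp only [X, Finset.mem_filter, Finset.mem_univ, true_and] at hx ⊢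
  refine ⟨hx.1, fun j => ?_⟩
  have h1 := congrArg Fin.val (congrFun hx.2 j)
  simp only [σ] at h1
  have h2 : (∑ l : Fin (Nat.size p), if (s j : ℕ).testBit l = true then 2 ^ (l : ℕ) else 0)
      = (s j : ℕ) := by
    rw [Code.sum_testBit, Nat.mod_eq_of_lt]
    exact (s j).2.trans (Nat.lt_size_self p)
  change (∑ i : Fin p, if x i = true then (i : ℕ) ^ (j : ℕ) else 0) ≡
    (∑ l : Fin (Nat.size p), if (s j : ℕ).testBit l = true then 2 ^ (l : ℕ) else 0) [MOD p]
  rw [h2, ← h1]
  exact (Nat.mod_modEq _ _).symm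

end Vale.Agent.P336W
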