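import Mathlib

/-!
# P336: the combinatorial core

An intersection of few juntas of small width all whose points are far apart is determined
outside a large set of coordinates.
-/

open Finset

namespace Vale.Agent.P336W

section

variable {ι A : Type} [Fintype ι] [DecidableEq ι] [Fintype A] [DecidableEq A]

/-- The indices of the sets that contain `i`. -/
def nb (S : A → Finset ι) (i : ι) : Finset A := univ.filter fun a => i ∈ S a

theorem mem_nb {S : A → Finset ι} {i : ι} {a : A} : a ∈ nb S i ↔ i ∈ S a := by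
  simp [nb]

theorem sum_nb (S : A → Finset ι) : ∑ i, (nb S i).card = ∑ a, (S a).card := by
  simp only [nb, Finset.card_filter]
  rw [Finset.sum_comm]
  refine Finset.sum_congr rfl fun a _ => ?_
  simp

theorem low (S : A → Finset ι) (k : ℕ) (hk : ∀ a, (S a).card ≤ k) (E : Finset ι) (w : ℕ)
    (hw : 1 ≤ w) (c1 : 2 * Fintype.card A * k ≤ w * E.card) :
    E.card ≤ 2 * (E.filter fun i => (nb S i).card ≤ w).card := by
  have h1 : (E.filter fun i => ¬ (nb S i).card ≤ w).card * w ≤ Fintype.card A * k := by
    calc (E.filter fun i => ¬ (nb S i).card ≤ w).card * w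
        = ∑ _i ∈ E.filter (fun i => ¬ (nb S i).card ≤ w), w := by simp
      _ ≤ ∑ i ∈ E.filter (fun i => ¬ (nb S i).card ≤ w), (nb S i).card := by
          refine Finset.sum_le_sum fun i hi => ?_
          rw [Finset.mem_filter] at hi
          omega
      _ ≤ ∑ i, (nb S i).card := Finset.sum_le_univ_sum_of_nonneg fun _ => Nat.zero_le _
      _ = ∑ a, (S a).card := sum_nb S
      _ ≤ ∑ _a : A, k := Finset.sum_le_sum fun a _ => hk a
      _ = Fintype.card A * k := by simp
  have h2 : (E.filter fun i => (nb S i).card ≤ w).card +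
      (E.filter fun i => ¬ (nb S i).card ≤ w).card = E.card :=
    Finset.card_filter_add_card_filter_not _
  have h3 : w * (2 * (E.filter fun i => ¬ (nb S i).card ≤ w).card) ≤ w * E.card := by
    nlinarith
  have h4 := Nat.le_of_mul_le_mul_left h3 hw
  omega

theorem exists_blk (B : ℕ) (hB : 1 ≤ B) : ∃ blk : A → Fin B,
    ∀ j, (univ.filter fun a => blk a = j).card ≤ Fintype.card A / B + 1 := by
  have hNc : Fintype.card A < B * (Fintype.card A / B + 1) :=
    Nat.lt_mul_div_succ _ (by omega)
  have hcpos : 0 < Fintype.card A / B + 1 := Nat.succ_pos _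
  generalize Fintype.card A / B + 1 = c at hNc hcpos
  have hlt : ∀ a : A, (Fintype.equivFin A a : ℕ) / c < B := by
    intro a
    rw [Nat.div_lt_iff_lt_mul hcpos]
    exact (Fintype.equivFin A a).2.trans hNc
  refine ⟨fun a => ⟨(Fintype.equivFin A a : ℕ) / c, hlt a⟩, fun j => ?_⟩
  have : (univ.filter fun a : A => (⟨(Fintype.equivFin A a : ℕ) / c, hlt a⟩ : Fin B) = j).card
      ≤ (Finset.Ico ((j : ℕ) * c) ((j : ℕ) * c + c)).card := by
    refine Finset.card_le_card_of_injOn (fun a => (Fintype.equivFin A a : ℕ)) ?_ ?_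
    · intro a ha
      rw [Finset.mem_coe, Finset.mem_filter] at ha
      have h1 : (Fintype.equivFin A a : ℕ) / c = j := congrArg Fin.val ha.2
      have h2 := Nat.div_add_mod (Fintype.equivFin A a : ℕ) c
      have h3 := Nat.mod_lt (Fintype.equivFin A a : ℕ) hcpos
      rw [h1, Nat.mul_comm] at h2
      rw [Finset.mem_coe, Finset.mem_Ico]
      constructor
      · show (j : ℕ) * c ≤ (Fintype.equivFin A a : ℕ)
        omega
      · show (Fintype.equivFin A a : ℕ) < (j : ℕ) * c + c
        omega
    · intro a _ b _ hab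
      exact (Fintype.equivFin A).injective (Fin.ext hab)
  simpa using this

theorem exists_tau {B w : ℕ} (hB : 1 ≤ B) (X : Finset (Fin B)) (hX : X.card ≤ w) :
    ∃ τ : Fin w → Fin B, ∀ x ∈ X, ∃ l, τ l = x := by
  refine ⟨fun l => if h : (l : ℕ) < X.card then (X.equivFin.symm ⟨l, h⟩ : Fin B) else ⟨0, hB⟩,
    fun x hx => ?_⟩
  have h1 := (X.equivFin ⟨x, hx⟩).2
  refine ⟨⟨(X.equivFin ⟨x, hx⟩ : ℕ), by omega⟩, ?_⟩
  simp [h1]

theorem exists_group (S : A → Finset ι) {B w D q : ℕ} (hB : 1 ≤ B) (blk : A → Fin B)
    (hblk : ∀ j, (univ.filter fun a => blk a = j).card ≤ q) (U : Finset ι)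
    (hU : ∀ i ∈ U, (nb S i).card ≤ w) (Qu : Finset A) (hQu : ∀ i ∈ U, Disjoint (nb S i) Qu)
    (hc : B ^ w * D ≤ U.card) :
    ∃ V ⊆ U, V.card = D ∧ ∃ Q : Finset A, Disjoint Q Qu ∧ Q.card ≤ w * q ∧
      ∀ i ∈ V, nb S i ⊆ Q := by
  classical
  have hτ : ∀ i : ι, ∃ τ : Fin w → Fin B, i ∈ U → ∀ a ∈ nb S i, ∃ l, τ l = blk a := by
    intro i
    by_cases hi : i ∈ U
    · obtain ⟨τ, hτ⟩ := exists_tau hB ((nb S i).image blk)
        (Finset.card_image_le.trans (hU i hi))
      exact ⟨τ, fun _ a ha => hτ _ (Finset.mem_image_of_mem _ ha)⟩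
    · exact ⟨fun _ => ⟨0, hB⟩, fun h => absurd h hi⟩
  choose τ hτ using hτ
  obtain ⟨t, -, ht⟩ := Finset.exists_le_card_fiber_of_mul_le_card_of_maps_to
    (s := U) (t := (univ : Finset (Fin w → Fin B))) (f := τ) (n := D)
    (fun _ _ => Finset.mem_univ _) ⟨fun _ => ⟨0, hB⟩, Finset.mem_univ _⟩ (by simpa using hc)
  obtain ⟨V, hVU, hVc⟩ := Finset.exists_subset_card_eq ht
  refine ⟨V, hVU.trans (Finset.filter_subset _ _), hVc,
    univ.filter (fun a => a ∉ Qu ∧ ∃ l, t l = blk a), ?_, ?_, ?_⟩
  · rw [Finset.disjoint_left]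
    intro a ha
    rw [Finset.mem_filter] at ha
    exact ha.2.1
  · have hsub : univ.filter (fun a => a ∉ Qu ∧ ∃ l, t l = blk a) ⊆
        (univ : Finset (Fin w)).biUnion fun l => univ.filter fun a => blk a = t l := by
      intro a ha
      rw [Finset.mem_filter] at ha
      obtain ⟨l, hl⟩ := ha.2.2
      rw [Finset.mem_biUnion]
      exact ⟨l, Finset.mem_univ _, by simp [hl]⟩
    refine (Finset.card_le_card hsub).trans (Finset.card_biUnion_le.trans ?_)
    refine (Finset.sum_le_sum fun l _ => hblk (t l)).trans ?_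
    simp
  · intro i hi a ha
    have h1 := Finset.mem_filter.1 (hVU hi)
    rw [Finset.mem_filter]
    refine ⟨Finset.mem_univ _, fun haQ => ?_, ?_⟩
    · exact Finset.disjoint_left.1 (hQu i h1.1) ha haQ
    · obtain ⟨l, hl⟩ := hτ i h1.1 a ha
      exact ⟨l, by rw [← h1.2]; exact hl⟩

/-- [CORE] -/
theorem core (S : A → Finset ι) (k : ℕ) (hk : ∀ a, (S a).card ≤ k)
    (G : A → (ι → Bool) → Prop) (hG : ∀ a x y, (∀ i ∈ S a, x i = y i) → G a x → G a y)
    (E : Finset ι) (ρ : ι → Bool) (D w B R : ℕ) (hw : 1 ≤ w) (hB : 1 ≤ B)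
    (hD : ∀ x y : ι → Bool, (∀ i, i ∉ E → x i = ρ i) → (∀ i, i ∉ E → y i = ρ i) →
      (∀ a, G a x) → (∀ a, G a y) → (univ.filter fun i => x i ≠ y i).card ≤ D → x = y)
    (c1 : 2 * Fintype.card A * k ≤ w * E.card) (c2 : 4 * B ^ w * D ≤ E.card)
    (c3 : 4 * R * (D + w * (Fintype.card A / B + 1) * k) ≤ E.card) :
    ∃ T ⊆ E, T.card = R * D ∧ ∀ x y : ι → Bool, (∀ i, i ∉ E → x i = ρ i) →
      (∀ i, i ∉ E → y i = ρ i) → (∀ a, G a x) → (∀ a, G a y) →
      (∀ i, i ∉ T → x i = y i) → x = y := by
  obtain ⟨blk, hblk⟩ := exists_blk (A := A) B hB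
  set q := Fintype.card A / B + 1 with hq
  have hlow := low S k hk E w hw c1
  have main : ∀ R : ℕ, 4 * R * (D + w * q * k) ≤ E.card → ∃ T ⊆ E, T.card = R * D ∧
      ∃ Qs : Finset A, Qs.card ≤ R * (w * q) ∧ (∀ i ∈ T, nb S i ⊆ Qs) ∧
      ∀ x y : ι → Bool, (∀ i, i ∉ E → x i = ρ i) →
      (∀ i, i ∉ E → y i = ρ i) → (∀ a, G a x) → (∀ a, G a y) →
      (∀ i, i ∉ T → x i = y i) → x = y := by
    intro R
    induction R with
    | zero =>
      intro _
      refine ⟨∅, Finset.empty_subset _, by simp, ∅, by simp, by simp, ?_⟩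
      intro x y _ _ _ _ h
      funext i
      exact h i (Finset.notMem_empty i)
    | succ R ih =>
      intro hR
      have hR' : 4 * R * (D + w * q * k) ≤ E.card := by nlinarith
      obtain ⟨T, hTE, hTc, Qs, hQc, hTQ, hinj⟩ := ih hR'
      set U := (E.filter fun i => (nb S i).card ≤ w).filter
        (fun i => i ∉ T ∧ Disjoint (nb S i) Qs) with hUdef
      have hUc : B ^ w * D ≤ U.card := by
        have hsub : (E.filter fun i => (nb S i).card ≤ w) ⊆ U ∪ (T ∪ Qs.biUnion S) := by
          intro i hi
          rw [Finset.mem_union]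
          by_cases h1 : i ∈ T
          · right; exact Finset.mem_union_left _ h1
          · by_cases h2 : Disjoint (nb S i) Qs
            · left
              rw [hUdef, Finset.mem_filter]
              exact ⟨hi, h1, h2⟩
            · right
              rw [Finset.not_disjoint_iff] at h2
              obtain ⟨a, ha, haQ⟩ := h2
              refine Finset.mem_union_right _ ?_
              rw [Finset.mem_biUnion]
              exact ⟨a, haQ, mem_nb.1 ha⟩
        have h1 := Finset.card_le_card hsub
        have h2 := Finset.card_union_le U (T ∪ Qs.biUnion S)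
        have h3 := Finset.card_union_le T (Qs.biUnion S)
        have h4 : (Qs.biUnion S).card ≤ Qs.card * k := by
          refine Finset.card_biUnion_le.trans ?_
          refine (Finset.sum_le_sum fun a _ => hk a).trans ?_
          simp
        have h5 : Qs.card * k ≤ R * (w * q) * k := Nat.mul_le_mul_right _ hQc
        have h6 : 4 * R * (D + w * q * k) = 4 * (R * D) + 4 * (R * (w * q) * k) := by ring
        have h7 : 4 * (B ^ w * D) = 4 * B ^ w * D := by ring
        omega
      obtain ⟨V, hVU, hVc, Q, hQd, hQcard, hVQ⟩ := exists_group S hB blk hblk U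
        (fun i hi => (Finset.mem_filter.1 (Finset.mem_filter.1 hi).1).2) Qs
        (fun i hi => (Finset.mem_filter.1 hi).2.2) hUc
      have hVE : V ⊆ E := fun i hi =>
        (Finset.mem_filter.1 (Finset.mem_filter.1 (hVU hi)).1).1
      have hVT : Disjoint T V := by
        rw [Finset.disjoint_right]
        intro i hi
        exact (Finset.mem_filter.1 (hVU hi)).2.1
      refine ⟨T ∪ V, Finset.union_subset hTE hVE, ?_, Qs ∪ Q, ?_, ?_, ?_⟩
      · rw [Finset.card_union_of_disjoint hVT, hTc, hVc]
        ring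
      · refine (Finset.card_union_le _ _).trans ?_
        have : (R + 1) * (w * q) = R * (w * q) + w * q := by ring
        omega
      · intro i hi
        rw [Finset.mem_union] at hi
        rcases hi with hi | hi
        · exact (hTQ i hi).trans Finset.subset_union_left
        · exact (hVQ i hi).trans Finset.subset_union_right
      · intro x y hx hy hGx hGy hxy
        set z : ι → Bool := fun i => if i ∈ V then y i else x i with hz
        have hzE : ∀ i, i ∉ E → z i = ρ i := by
          intro i hi
          have : i ∉ V := fun h => hi (hVE h)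
          simp only [hz, this, if_false]
          exact hx i hi
        have hGz : ∀ a, G a z := by
          intro a
          by_cases ha : a ∈ Q
          · refine hG a y z ?_ (hGy a)
            intro i hi
            by_cases hiV : i ∈ V
            · simp [hz, hiV]
            · have hiT : i ∉ T := by
                intro hiT
                exact Finset.disjoint_left.1 hQd ha (hTQ i hiT (mem_nb.2 hi))
              have := hxy i (by rw [Finset.mem_union]; tauto)
              simp [hz, hiV, this]
          · refine hG a x z ?_ (hGx a)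
            intro i hi
            have hiV : i ∉ V := fun hiV => ha (hVQ i hiV (mem_nb.2 hi))
            simp [hz, hiV]
        have hzx : x = z := by
          refine hD x z hx hzE hGx hGz ?_
          have : (univ.filter fun i => x i ≠ z i) ⊆ V := by
            intro i hi
            rw [Finset.mem_filter] at hi
            by_contra hiV
            exact hi.2 (by simp [hz, hiV])
          exact (Finset.card_le_card this).trans hVc.le
        refine hinj x y hx hy hGx hGy ?_
        intro i hiT
        by_cases hiV : i ∈ V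
        · rw [hzx]
          simp [hz, hiV]
        · exact hxy i (by rw [Finset.mem_union]; tauto)
  obtain ⟨T, h1, h2, _, _, _, h3⟩ := main R c3
  exact ⟨T, h1, h2, h3⟩

end

end Vale.Agent.P336W
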