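import Vale.Agent.P336W.Core

/-!
# P336: the combinatorial core, stronger form

Repeated splitting of the family of juntas and sphere packing.
-/

open Finset

namespace Vale.Agent.P336W

section

variable {ι A : Type} [Fintype ι] [DecidableEq ι] [Fintype A] [DecidableEq A]

omit [Fintype A] in
theorem card_between (Q N N' : Finset A) (hN : N ⊆ Q) (hN' : N' ⊆ Q) (hd : Disjoint N N')
    (w : ℕ) (h1 : N.card ≤ w) (h2 : N'.card ≤ w) :
    2 ^ Q.card ≤ 4 ^ w * (Q.powerset.filter fun Q1 => N ⊆ Q1 ∧ N' ⊆ Q \ Q1).card := by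
  have hsub : Finset.Icc N (Q \ N') ⊆
      Q.powerset.filter fun Q1 => N ⊆ Q1 ∧ N' ⊆ Q \ Q1 := by
    intro Q1 hQ1
    rw [Finset.mem_Icc] at hQ1
    rw [Finset.mem_filter, Finset.mem_powerset]
    refine ⟨fun a ha => (Finset.mem_sdiff.1 (hQ1.2 ha)).1, hQ1.1, fun a ha => ?_⟩
    rw [Finset.mem_sdiff]
    exact ⟨hN' ha, fun haQ => (Finset.mem_sdiff.1 (hQ1.2 haQ)).2 ha⟩
  have hle : N ⊆ Q \ N' := by
    intro a ha
    rw [Finset.mem_sdiff]
    exact ⟨hN ha, fun h => Finset.disjoint_left.1 hd ha h⟩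
  have h3 := Finset.card_le_card hsub
  rw [Finset.card_Icc_finset hle, Finset.card_sdiff_of_subset hN'] at h3
  calc 2 ^ Q.card ≤ 2 ^ (2 * w + (Q.card - N'.card - N.card)) :=
        Nat.pow_le_pow_right (by norm_num) (by omega)
    _ = 4 ^ w * 2 ^ (Q.card - N'.card - N.card) := by
        rw [pow_add, pow_mul]
        norm_num
    _ ≤ _ := Nat.mul_le_mul_left _ h3

theorem card_not_disjoint (S : A → Finset ι) (k : ℕ) (hk : ∀ a, (S a).card ≤ k) (V : Finset ι)
    (w : ℕ) (hw : ∀ i ∈ V, (nb S i).card ≤ w) :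
    ((V ×ˢ V).filter fun p => ¬ Disjoint (nb S p.1) (nb S p.2)).card ≤ V.card * (w * k) := by
  have hsub : ((V ×ˢ V).filter fun p => ¬ Disjoint (nb S p.1) (nb S p.2)) ⊆
      V.biUnion fun i => ((nb S i).biUnion S).image fun i' => (i, i') := by
    rintro ⟨i, i'⟩ hp
    rw [Finset.mem_filter, Finset.mem_product] at hp
    rw [Finset.mem_biUnion]
    refine ⟨i, hp.1.1, ?_⟩
    rw [Finset.mem_image]
    refine ⟨i', ?_, rfl⟩
    obtain ⟨a, ha, ha'⟩ := Finset.not_disjoint_iff.1 hp.2
    rw [Finset.mem_biUnion]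
    exact ⟨a, ha, mem_nb.1 ha'⟩
  refine (Finset.card_le_card hsub).trans (Finset.card_biUnion_le.trans ?_)
  have hb : ∀ i ∈ V, (((nb S i).biUnion S).image fun i' => (i, i')).card ≤ w * k := by
    intro i hi
    refine Finset.card_image_le.trans (Finset.card_biUnion_le.trans ?_)
    refine (Finset.sum_le_sum fun a _ => hk a).trans ?_
    rw [Finset.sum_const, smul_eq_mul]
    exact Nat.mul_le_mul_right _ (hw i hi)
  refine (Finset.sum_le_sum hb).trans ?_
  rw [Finset.sum_const, smul_eq_mul]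

theorem split (S : A → Finset ι) (k : ℕ) (hk : ∀ a, (S a).card ≤ k) (V : Finset ι)
    (Q : Finset A) (w : ℕ) (hw : ∀ i ∈ V, (nb S i).card ≤ w) (hQ : ∀ i ∈ V, nb S i ⊆ Q)
    (hV : 2 * w * k ≤ V.card) (hV0 : 0 < V.card) :
    ∃ Q1 ⊆ Q, V.card ≤ 2 * 4 ^ w * (V.filter fun i => nb S i ⊆ Q1).card ∧
      V.card ≤ 2 * 4 ^ w * (V.filter fun i => nb S i ⊆ Q \ Q1).card := by
  have hnd := card_not_disjoint S k hk V w hw
  have hsplit : ((V ×ˢ V).filter fun p => Disjoint (nb S p.1) (nb S p.2)).card +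
      ((V ×ˢ V).filter fun p => ¬ Disjoint (nb S p.1) (nb S p.2)).card = V.card * V.card := by
    rw [← Finset.card_product]
    exact Finset.card_filter_add_card_filter_not _
  have hd : V.card * V.card ≤
      2 * ((V ×ˢ V).filter fun p => Disjoint (nb S p.1) (nb S p.2)).card := by
    have h1 : V.card * (2 * w * k) ≤ V.card * V.card := Nat.mul_le_mul_left _ hV
    have h2 : V.card * (2 * w * k) = 2 * (V.card * (w * k)) := by ring
    omega
  -- the sum over all subfamilies
  have hsum : V.card * V.card * 2 ^ Q.card ≤ ∑ Q1 ∈ Q.powerset, 2 * 4 ^ w *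
      ((V.filter fun i => nb S i ⊆ Q1).card * (V.filter fun i => nb S i ⊆ Q \ Q1).card) := by
    have e1 : ∀ Q1 : Finset A, (V.filter fun i => nb S i ⊆ Q1).card *
        (V.filter fun i => nb S i ⊆ Q \ Q1).card =
        ((V ×ˢ V).filter fun p => nb S p.1 ⊆ Q1 ∧ nb S p.2 ⊆ Q \ Q1).card := by
      intro Q1
      rw [← Finset.card_product, ← Finset.filter_product]
    have e2 : ∑ Q1 ∈ Q.powerset,
        ((V ×ˢ V).filter fun p => nb S p.1 ⊆ Q1 ∧ nb S p.2 ⊆ Q \ Q1).card =
        ∑ p ∈ V ×ˢ V, (Q.powerset.filter fun Q1 => nb S p.1 ⊆ Q1 ∧ nb S p.2 ⊆ Q \ Q1).card := by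
      simp only [Finset.card_filter]
      exact Finset.sum_comm
    simp only [e1]
    rw [← Finset.mul_sum, e2]
    calc V.card * V.card * 2 ^ Q.card
        ≤ 2 * ((V ×ˢ V).filter fun p => Disjoint (nb S p.1) (nb S p.2)).card * 2 ^ Q.card :=
          Nat.mul_le_mul_right _ hd
      _ = 2 * ∑ _p ∈ (V ×ˢ V).filter (fun p => Disjoint (nb S p.1) (nb S p.2)), 2 ^ Q.card := by
          rw [Finset.sum_const, smul_eq_mul]
          ring
      _ ≤ 2 * ∑ p ∈ (V ×ˢ V).filter (fun p => Disjoint (nb S p.1) (nb S p.2)), 4 ^ w *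
            (Q.powerset.filter fun Q1 => nb S p.1 ⊆ Q1 ∧ nb S p.2 ⊆ Q \ Q1).card := by
          refine Nat.mul_le_mul_left _ (Finset.sum_le_sum fun p hp => ?_)
          rw [Finset.mem_filter, Finset.mem_product] at hp
          exact card_between Q _ _ (hQ _ hp.1.1) (hQ _ hp.1.2) hp.2 w (hw _ hp.1.1) (hw _ hp.1.2)
      _ ≤ 2 * ∑ p ∈ V ×ˢ V, 4 ^ w *
            (Q.powerset.filter fun Q1 => nb S p.1 ⊆ Q1 ∧ nb S p.2 ⊆ Q \ Q1).card := by
          refine Nat.mul_le_mul_left _ (Finset.sum_le_sum_of_subset (Finset.filter_subset _ _))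
      _ = _ := by
          rw [← Finset.mul_sum]
          ring
  have hsum' : ∑ _Q1 ∈ Q.powerset, V.card * V.card ≤ ∑ Q1 ∈ Q.powerset, 2 * 4 ^ w *
      ((V.filter fun i => nb S i ⊆ Q1).card * (V.filter fun i => nb S i ⊆ Q \ Q1).card) := by
    rw [Finset.sum_const, Finset.card_powerset, smul_eq_mul, Nat.mul_comm]
    exact hsum
  obtain ⟨Q1, hQ1, h⟩ := Finset.exists_le_of_sum_le ⟨∅, Finset.empty_mem_powerset Q⟩ hsum'
  refine ⟨Q1, Finset.mem_powerset.1 hQ1, ?_, ?_⟩
  · have h1 : (V.filter fun i => nb S i ⊆ Q \ Q1).card ≤ V.card :=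
      Finset.card_le_card (Finset.filter_subset _ _)
    have h2 : V.card * V.card ≤
        (2 * 4 ^ w * (V.filter fun i => nb S i ⊆ Q1).card) * V.card := by
      calc V.card * V.card ≤ 2 * 4 ^ w * ((V.filter fun i => nb S i ⊆ Q1).card *
            (V.filter fun i => nb S i ⊆ Q \ Q1).card) := h
        _ ≤ 2 * 4 ^ w * ((V.filter fun i => nb S i ⊆ Q1).card * V.card) := by gcongr
        _ = _ := by ring
    exact Nat.le_of_mul_le_mul_right h2 hV0
  · have h1 : (V.filter fun i => nb S i ⊆ Q1).card ≤ V.card :=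
      Finset.card_le_card (Finset.filter_subset _ _)
    have h2 : V.card * V.card ≤
        (2 * 4 ^ w * (V.filter fun i => nb S i ⊆ Q \ Q1).card) * V.card := by
      calc V.card * V.card ≤ 2 * 4 ^ w * ((V.filter fun i => nb S i ⊆ Q1).card *
            (V.filter fun i => nb S i ⊆ Q \ Q1).card) := h
        _ ≤ 2 * 4 ^ w * (V.card * (V.filter fun i => nb S i ⊆ Q \ Q1).card) := by gcongr
        _ = _ := by ring
    exact Nat.le_of_mul_le_mul_right h2 hV0

/-- Flip the coordinates in `z`. -/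
def fl (x : ι → Bool) (z : Finset ι) : ι → Bool := fun i => if i ∈ z then !(x i) else x i

theorem peel (S : A → Finset ι) (k : ℕ) (hk : ∀ a, (S a).card ≤ k)
    (G : A → (ι → Bool) → Prop) (hG : ∀ a x y, (∀ i ∈ S a, x i = y i) → G a x → G a y)
    (E : Finset ι) (ρ : ι → Bool) (D w M h : ℕ) (hM : 1 ≤ M) (hwk : 2 * w * k ≤ M)
    (hh : 2 * h ≤ D)
    (hD : ∀ x y : ι → Bool, (∀ i, i ∉ E → x i = ρ i) → (∀ i, i ∉ E → y i = ρ i) →
      (∀ a, G a x) → (∀ a, G a y) → (univ.filter fun i => x i ≠ y i).card ≤ D → x = y) :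
    ∀ (R : ℕ) (V : Finset ι) (Q : Finset A), V ⊆ E →
      (∀ i ∈ V, (nb S i).card ≤ w ∧ (nb S i).Nonempty ∧ nb S i ⊆ Q) →
      M * (2 * 4 ^ w) ^ R ≤ V.card →
      ∃ Z : Finset (Finset ι), (M.choose h) ^ R ≤ Z.card ∧ (∀ z ∈ Z, z ⊆ V) ∧
        ∀ x x' : ι → Bool, (∀ i, i ∉ E → x i = ρ i) → (∀ i, i ∉ E → x' i = ρ i) →
          (∀ a, G a x) → (∀ a, G a x') → ∀ z ∈ Z, ∀ z' ∈ Z, fl x z = fl x' z' → x = x' := by
  intro R
  induction R with
  | zero =>
    intro V Q _ _ _
    refine ⟨{∅}, by simp, by simp, ?_⟩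
    intro x x' _ _ _ _ z hz z' hz' h
    rw [Finset.mem_singleton] at hz hz'
    subst hz
    subst hz'
    funext i
    simpa [fl] using congrFun h i
  | succ R ih =>
    intro V Q hVE hV hVc
    have h4 : 1 ≤ (2 * 4 ^ w) := by
      have := Nat.one_le_pow w 4 (by norm_num)
      omega
    have hpow1 : 1 ≤ (2 * 4 ^ w) ^ R := Nat.one_le_pow _ _ h4
    have hpow2 : 1 ≤ (2 * 4 ^ w) ^ (R + 1) := Nat.one_le_pow _ _ h4
    have hMV : M ≤ V.card := le_trans (Nat.le_mul_of_pos_right M hpow2) hVc
    obtain ⟨Q1, hQ1, hV1, hV2⟩ := split S k hk V Q w (fun i hi => (hV i hi).1)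
      (fun i hi => (hV i hi).2.2) (hwk.trans hMV) (by omega)
    set V1 := V.filter fun i => nb S i ⊆ Q1 with hV1def
    set V2 := V.filter fun i => nb S i ⊆ Q \ Q1 with hV2def
    have hV1c : M * (2 * 4 ^ w) ^ R ≤ V1.card := by
      have h1 : 2 * 4 ^ w * (M * (2 * 4 ^ w) ^ R) ≤ 2 * 4 ^ w * V1.card := by
        calc 2 * 4 ^ w * (M * (2 * 4 ^ w) ^ R) = M * (2 * 4 ^ w) ^ (R + 1) := by ring
          _ ≤ V.card := hVc
          _ ≤ _ := hV1
      exact Nat.le_of_mul_le_mul_left h1 (by omega)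
    have hV2c : M * (2 * 4 ^ w) ^ R ≤ V2.card := by
      have h1 : 2 * 4 ^ w * (M * (2 * 4 ^ w) ^ R) ≤ 2 * 4 ^ w * V2.card := by
        calc 2 * 4 ^ w * (M * (2 * 4 ^ w) ^ R) = M * (2 * 4 ^ w) ^ (R + 1) := by ring
          _ ≤ V.card := hVc
          _ ≤ _ := hV2
      exact Nat.le_of_mul_le_mul_left h1 (by omega)
    have hV1V : V1 ⊆ V := Finset.filter_subset _ _
    have hV2V : V2 ⊆ V := Finset.filter_subset _ _
    have hdis : ∀ i, i ∈ V1 → i ∈ V2 → False := by
      intro i h1 h2
      rw [hV1def, Finset.mem_filter] at h1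
      rw [hV2def, Finset.mem_filter] at h2
      obtain ⟨a, ha⟩ := (hV i h1.1).2.1
      exact (Finset.mem_sdiff.1 (h2.2 ha)).2 (h1.2 ha)
    obtain ⟨Z2, hZc, hZV, hZ⟩ := ih V2 (Q \ Q1) (hV2V.trans hVE)
      (fun i hi => ⟨(hV i (hV2V hi)).1, (hV i (hV2V hi)).2.1, (Finset.mem_filter.1 hi).2⟩) hV2c
    refine ⟨(V1.powersetCard h ×ˢ Z2).image fun z => z.1 ∪ z.2, ?_, ?_, ?_⟩
    · rw [Finset.card_image_of_injOn, Finset.card_product, Finset.card_powersetCard]
      · rw [pow_succ, Nat.mul_comm]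
        refine Nat.mul_le_mul (Nat.choose_le_choose h ?_) hZc
        exact le_trans (Nat.le_mul_of_pos_right M hpow1) hV1c
      · rintro ⟨z1, z2⟩ hz ⟨z1', z2'⟩ hz' heq
        rw [Finset.mem_coe, Finset.mem_product, Finset.mem_powersetCard] at hz hz'
        have heq' : z1 ∪ z2 = z1' ∪ z2' := heq
        have h1 : z1 = z1' := by
          ext i
          constructor
          · intro hi
            have : i ∈ z1' ∪ z2' := heq' ▸ Finset.mem_union_left _ hi
            rcases Finset.mem_union.1 this with h | h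
            · exact h
            · exact (hdis i (hz.1.1 hi) (hZV _ hz'.2 h)).elim
          · intro hi
            have : i ∈ z1 ∪ z2 := heq' ▸ Finset.mem_union_left _ hi
            rcases Finset.mem_union.1 this with h | h
            · exact h
            · exact (hdis i (hz'.1.1 hi) (hZV _ hz.2 h)).elim
        have h2 : z2 = z2' := by
          ext i
          constructor
          · intro hi
            have : i ∈ z1' ∪ z2' := heq' ▸ Finset.mem_union_right _ hi
            rcases Finset.mem_union.1 this with h | h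
            · exact (hdis i (hz'.1.1 h) (hZV _ hz.2 hi)).elim
            · exact h
          · intro hi
            have : i ∈ z1 ∪ z2 := heq' ▸ Finset.mem_union_right _ hi
            rcases Finset.mem_union.1 this with h | h
            · exact (hdis i (hz.1.1 h) (hZV _ hz'.2 hi)).elim
            · exact h
        rw [h1, h2]
    · intro z hz
      rw [Finset.mem_image] at hz
      obtain ⟨⟨z1, z2⟩, hz, rfl⟩ := hz
      rw [Finset.mem_product, Finset.mem_powersetCard] at hz
      exact Finset.union_subset (hz.1.1.trans hV1V) ((hZV _ hz.2).trans hV2V)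
    · intro x x' hx hx' hGx hGx' z hz z' hz' heq
      rw [Finset.mem_image] at hz hz'
      obtain ⟨⟨z1, z2⟩, hz, rfl⟩ := hz
      obtain ⟨⟨z1', z2'⟩, hz', rfl⟩ := hz'
      rw [Finset.mem_product, Finset.mem_powersetCard] at hz hz'
      have hz1 : z1 ⊆ V1 := hz.1.1
      have hz1' : z1' ⊆ V1 := hz'.1.1
      have hz2 : z2 ⊆ V2 := hZV _ hz.2
      have hz2' : z2' ⊆ V2 := hZV _ hz'.2
      have hout : ∀ i, i ∉ V1 → i ∉ V2 → x i = x' i := by
        intro i h1 h2
        have := congrFun heq i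
        have e1 : i ∉ z1 ∪ z2 := by
          rw [Finset.mem_union]
          exact fun h => h.elim (fun h => h1 (hz1 h)) (fun h => h2 (hz2 h))
        have e2 : i ∉ z1' ∪ z2' := by
          rw [Finset.mem_union]
          exact fun h => h.elim (fun h => h1 (hz1' h)) (fun h => h2 (hz2' h))
        simpa [fl, e1, e2] using this
      set y : ι → Bool := fun i => if i ∈ V1 then x' i else x i with hy
      have hyE : ∀ i, i ∉ E → y i = ρ i := by
        intro i hi
        have : i ∉ V1 := fun h => hi (hVE (hV1V h))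
        simp only [hy, this, if_false]
        exact hx i hi
      have hGy : ∀ a, G a y := by
        intro a
        by_cases ha : a ∈ Q1
        · refine hG a x' y ?_ (hGx' a)
          intro i hi
          by_cases hiV : i ∈ V1
          · simp [hy, hiV]
          · have hiV2 : i ∉ V2 := by
              intro hi2
              rw [hV2def, Finset.mem_filter] at hi2
              exact (Finset.mem_sdiff.1 (hi2.2 (mem_nb.2 hi))).2 ha
            simp [hy, hiV, hout i hiV hiV2]
        · refine hG a x y ?_ (hGx a)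
          intro i hi
          have hiV : i ∉ V1 := by
            intro hi1
            rw [hV1def, Finset.mem_filter] at hi1
            exact ha (hi1.2 (mem_nb.2 hi))
          simp [hy, hiV]
      have hxy : x = y := by
        refine hD x y hx hyE hGx hGy ?_
        have hsub : (univ.filter fun i => x i ≠ y i) ⊆ z1 ∪ z1' := by
          intro i hi
          rw [Finset.mem_filter] at hi
          by_contra hcon
          rw [Finset.mem_union, not_or] at hcon
          apply hi.2
          by_cases hiV : i ∈ V1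
          · have hi2 : i ∉ z2 := fun h => hdis i hiV (hz2 h)
            have hi2' : i ∉ z2' := fun h => hdis i hiV (hz2' h)
            have := congrFun heq i
            simp only [hy, hiV, if_true]
            simpa [fl, hcon.1, hcon.2, hi2, hi2'] using this
          · simp [hy, hiV]
        refine (Finset.card_le_card hsub).trans ((Finset.card_union_le _ _).trans ?_)
        rw [hz.1.2, hz'.1.2]
        omega
      have hV1eq : ∀ i ∈ V1, x i = x' i := by
        intro i hi
        have := congrFun hxy i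
        simpa [hy, hi] using this
      refine hZ x x' hx hx' hGx hGx' z2 hz.2 z2' hz'.2 ?_
      funext i
      by_cases hiV : i ∈ V1
      · have hi2 : i ∉ z2 := fun h => hdis i hiV (hz2 h)
        have hi2' : i ∉ z2' := fun h => hdis i hiV (hz2' h)
        simp [fl, hi2, hi2', hV1eq i hiV]
      · have hi1 : i ∉ z1 := fun h => hiV (hz1 h)
        have hi1' : i ∉ z1' := fun h => hiV (hz1' h)
        have := congrFun heq i
        simpa [fl, hi1, hi1'] using this

open Classical in
/-- [CORE2] -/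
theorem core2 (S : A → Finset ι) (k : ℕ) (hk : ∀ a, (S a).card ≤ k)
    (G : A → (ι → Bool) → Prop) (hG : ∀ a x y, (∀ i ∈ S a, x i = y i) → G a x → G a y)
    (E : Finset ι) (ρ : ι → Bool) (D w M h R : ℕ) (hw : 1 ≤ w) (hM : 1 ≤ M) (hD1 : 1 ≤ D)
    (hh : 2 * h ≤ D)
    (hD : ∀ x y : ι → Bool, (∀ i, i ∉ E → x i = ρ i) → (∀ i, i ∉ E → y i = ρ i) →
      (∀ a, G a x) → (∀ a, G a y) → (univ.filter fun i => x i ≠ y i).card ≤ D → x = y)
    (c1 : 2 * Fintype.card A * k ≤ w * E.card) (c2 : 2 * w * k ≤ M)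
    (c3 : 2 * (M * (2 * 4 ^ w) ^ R) ≤ E.card)
    (F : Finset (ι → Bool)) (hF : ∀ x ∈ F, (∀ i, i ∉ E → x i = ρ i) ∧ ∀ a, G a x) :
    F.card * (M.choose h) ^ R ≤ 2 ^ E.card := by
  rcases F.eq_empty_or_nonempty with hFe | ⟨x0, hx0⟩
  · rw [hFe]
    simp
  have hlow := low S k hk E w hw c1
  have hne : ∀ i ∈ E, (nb S i).Nonempty := by
    intro i hi
    by_contra hcon
    rw [Finset.not_nonempty_iff_eq_empty] at hcon
    have h0 := hF x0 hx0
    have h1 : x0 = Function.update x0 i (!(x0 i)) := by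
      refine hD x0 _ h0.1 ?_ h0.2 ?_ ?_
      · intro j hj
        have : j ≠ i := fun h => hj (h ▸ hi)
        rw [Function.update_of_ne this]
        exact h0.1 j hj
      · intro a
        refine hG a x0 _ (fun j hj => ?_) (h0.2 a)
        have : j ≠ i := by
          rintro rfl
          have := mem_nb.2 hj
          rw [hcon] at this
          exact absurd this (Finset.notMem_empty _)
        rw [Function.update_of_ne this]
      · have hsub : (univ.filter fun j => x0 j ≠ Function.update x0 i (!(x0 i)) j) ⊆ {i} := by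
          intro j hj
          rw [Finset.mem_filter] at hj
          rw [Finset.mem_singleton]
          by_contra hji
          exact hj.2 (by rw [Function.update_of_ne hji])
        exact (Finset.card_le_card hsub).trans (by simpa using hD1)
    have h2 := congrFun h1 i
    rw [Function.update_self] at h2
    cases h3 : x0 i <;> simp [h3] at h2
  obtain ⟨Z, hZc, hZV, hZ⟩ := peel S k hk G hG E ρ D w M h hM c2 hh hD R
    (E.filter fun i => (nb S i).card ≤ w) univ (Finset.filter_subset _ _)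
    (fun i hi => ⟨(Finset.mem_filter.1 hi).2, hne i (Finset.mem_filter.1 hi).1,
      Finset.subset_univ _⟩) (by omega)
  have h1 : (F ×ˢ Z).card ≤ (univ : Finset ({i // i ∈ E} → Bool)).card := by
    refine Finset.card_le_card_of_injOn (fun xz i => fl xz.1 xz.2 i.1)
      (fun _ _ => Finset.mem_univ _) ?_
    rintro ⟨x, z⟩ hxz ⟨x', z'⟩ hxz' heq
    rw [Finset.mem_coe, Finset.mem_product] at hxz hxz'
    have hzE : z ⊆ E := (hZV z hxz.2).trans (Finset.filter_subset _ _)
    have hzE' : z' ⊆ E := (hZV z' hxz'.2).trans (Finset.filter_subset _ _)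
    have hfl : fl x z = fl x' z' := by
      funext i
      by_cases hi : i ∈ E
      · exact congrFun heq ⟨i, hi⟩
      · have e1 : i ∉ z := fun h => hi (hzE h)
        have e2 : i ∉ z' := fun h => hi (hzE' h)
        have e3 := (hF x hxz.1).1 i hi
        have e4 := (hF x' hxz'.1).1 i hi
        simp [fl, e1, e2, e3, e4]
    have hxx : x = x' := hZ x x' (hF x hxz.1).1 (hF x' hxz'.1).1 (hF x hxz.1).2
      (hF x' hxz'.1).2 z hxz.2 z' hxz'.2 hfl
    subst hxx
    have hzz : z = z' := by
      ext i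
      have h3 := congrFun hfl i
      simp only [fl] at h3
      by_cases h1 : i ∈ z
      · by_cases h2 : i ∈ z'
        · exact ⟨fun _ => h2, fun _ => h1⟩
        · rw [if_pos h1, if_neg h2] at h3
          cases h5 : x i <;> simp [h5] at h3
      · by_cases h2 : i ∈ z'
        · rw [if_neg h1, if_pos h2] at h3
          cases h5 : x i <;> simp [h5] at h3
        · exact ⟨fun h => absurd h h1, fun h => absurd h h2⟩
    rw [hzz]
  rw [Finset.card_product, Finset.card_univ, Fintype.card_fun, Fintype.card_bool,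
    Fintype.card_coe] at h1
  exact (Nat.mul_le_mul_left _ hZc).trans h1

end

end Vale.Agent.P336W
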