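import Mathlib

/-!
# P336: depth-three circuits and the membership problem of an explicit code
-/

namespace Vale.Agent.P336W

/-- Inputs of a bottom gate: a literal (variable `i` together with the value `b` that makes the
literal true), or a constant. -/
abbrev Inp (V : Type) := (V × Bool) ⊕ Bool

/-- The value of an input of a bottom gate under the assignment `x`. -/
def inpVal {V : Type} (x : V → Bool) : Inp V → Prop
  | Sum.inl l => x l.1 = l.2
  | Sum.inr c => c = true

/-- A depth-three OR-AND-OR circuit: `bot` bottom OR gates, `mid` middle AND gates and one top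
OR gate; fan-in and fan-out are unbounded. -/
structure Circuit (V : Type) where
  bot : ℕ
  mid : ℕ
  bottom : Fin bot → Finset (Inp V)
  middle : Fin mid → Finset (Fin bot)
  top : Finset (Fin mid)

/-- The number of gates. -/
def Circuit.size {V : Type} (C : Circuit V) : ℕ := C.bot + C.mid + 1

/-- The circuit accepts the assignment `x`. -/
def Circuit.Accepts {V : Type} (C : Circuit V) (x : V → Bool) : Prop :=
  ∃ j ∈ C.top, ∀ b ∈ C.middle j, ∃ l ∈ C.bottom b, inpVal x l

/-- The set of variables that a bottom gate reads. -/
def varSet {V : Type} [DecidableEq V] (g : Finset (Inp V)) : Finset V :=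
  g.biUnion fun l => match l with
    | Sum.inl l => {l.1}
    | Sum.inr _ => ∅

/-- The distinct variable sets of the bottom gates read by the middle gate `j`. -/
def Circuit.patterns {V : Type} [DecidableEq V] (C : Circuit V) (j : Fin C.mid) :
    Finset (Finset V) :=
  (C.middle j).image fun b => varSet (C.bottom b)

/-- The input variables: `p` bits `x_0, ..., x_(p-1)` and `D` blocks of `Nat.size p` bits. -/
abbrev Var (p D : ℕ) := Fin p ⊕ (Fin D × Fin (Nat.size p))

/-- The explicit code: the `D` power sums `∑ i, x_i i ^ j` (`j < D`) modulo `p` are the `D`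
numbers whose binary digits are given by the remaining input bits. -/
def InCode (p D : ℕ) (z : Var p D → Bool) : Prop :=
  ∀ j : Fin D, (∑ i : Fin p, if z (Sum.inl i) = true then (i : ℕ) ^ (j : ℕ) else 0) ≡
    (∑ l : Fin (Nat.size p), if z (Sum.inr (j, l)) = true then 2 ^ (l : ℕ) else 0) [MOD p]

end Vale.Agent.P336W
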