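import Vale.Agent.P336W.FinProof
import Vale.Agent.P336W.Core2

/-!
# P336: the finite form of the trade-off, stronger form
-/

open Finset

namespace Vale.Agent.P336W

open Classical in
/-- [FIN2] -/
theorem fin2 {p D : ℕ} (hp : p.Prime) (hD1 : 1 ≤ D) (C : Circuit (Var p D))
    (hC : ∀ z, C.Accepts z ↔ InCode p D z) (s m w M R h : ℕ) (hs : 1 ≤ s)
    (hsize : C.size ≤ 2 ^ s) (hm : ∀ j ∈ C.top, (C.patterns j).card ≤ m) (hw : 1 ≤ w)
    (c1 : 32 * m * s ≤ w * p) (hh : 2 * h ≤ D) (c2 : 16 * w * s ≤ M)
    (c3 : 4 * M * (2 * 4 ^ w) ^ R ≤ p)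
    (c4 : 2 ^ (s + D * Nat.size p) < (M.choose h) ^ R) : False := by
  have hbot : C.bot ≤ 2 ^ s := by
    have : C.size = C.bot + C.mid + 1 := rfl
    omega
  have hmid : C.mid ≤ 2 ^ s := by
    have : C.size = C.bot + C.mid + 1 := rfl
    omega
  obtain ⟨T0, ρ, hT0, hgr⟩ := greedy
    ((univ : Finset (Fin C.bot)).image fun b => xl (C.bottom b)) s hs
    (Finset.card_image_le.trans (by simpa using hbot)) (by simpa using hp.two_le)
  rw [Fintype.card_fin] at hT0
  obtain ⟨E, hE⟩ : ∃ E : Finset (Fin p), E = univ \ T0 := ⟨_, rfl⟩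
  have hEc : p ≤ 2 * E.card := by
    have h1 : E.card = p - T0.card := by
      rw [hE, Finset.card_sdiff_of_subset (Finset.subset_univ _), Finset.card_univ,
        Fintype.card_fin]
    omega
  have hET : ∀ i, i ∉ E ↔ i ∈ T0 := by
    intro i
    rw [hE]
    simp
  obtain ⟨y, hy⟩ := exists_popular (D := D) hp.pos E ρ
  -- the sets accepted by the middle gates
  set F : Fin C.mid → Finset (Fin p → Bool) := fun j => univ.filter fun x =>
    (∀ i, i ∉ E → x i = ρ i) ∧
      ∀ b ∈ C.middle j, ∃ l ∈ C.bottom b, inpVal (Sum.elim x y : Var p D → Bool) l with hFdef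
  have hcover : (univ.filter fun x : Fin p → Bool =>
        (∀ i, i ∉ E → x i = ρ i) ∧ InCode p D (Sum.elim x y)) ⊆ C.top.biUnion F := by
    intro x hx
    rw [Finset.mem_filter] at hx
    obtain ⟨j, hj, hacc⟩ := (hC _).2 hx.2.2
    rw [Finset.mem_biUnion]
    exact ⟨j, hj, Finset.mem_filter.2 ⟨Finset.mem_univ _, hx.2.1, hacc⟩⟩
  have hcode : ∀ j ∈ C.top, ∀ x : Fin p → Bool,
      (∀ b ∈ C.middle j, ∃ l ∈ C.bottom b, inpVal (Sum.elim x y : Var p D → Bool) l) →
      InCode p D (Sum.elim x y) := fun j hj x hx => (hC _).1 ⟨j, hj, hx⟩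
  have hFj : ∀ j ∈ C.top, (F j).card * (M.choose h) ^ R ≤ 2 ^ E.card := by
    intro j hj
    -- the juntas
    let A := {a // a ∈ C.patterns j}
    let fv : A → Finset (Fin p) := fun a => E.filter fun i => (Sum.inl i : Var p D) ∈ a.1
    let S : A → Finset (Fin p) := fun a => if (fv a).card ≤ 8 * s then fv a else ∅
    let fx : (Fin p → Bool) → (Fin p → Bool) := fun x i => if i ∈ E then x i else ρ i
    let G : A → (Fin p → Bool) → Prop := fun a x => (fv a).card ≤ 8 * s →
      ∀ b ∈ C.middle j, varSet (C.bottom b) = a.1 →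
        ∃ l ∈ C.bottom b, inpVal (Sum.elim (fx x) y : Var p D → Bool) l
    have hcardA : Fintype.card A ≤ m := by
      have : Fintype.card A = (C.patterns j).card := Fintype.card_coe _
      rw [this]
      exact hm j hj
    have hfx : ∀ x : Fin p → Bool, (∀ i, i ∉ E → x i = ρ i) → fx x = x := by
      intro x hx
      funext i
      by_cases hi : i ∈ E
      · simp [fx, hi]
      · simp [fx, hi, hx i hi]
    have hiff : ∀ x : Fin p → Bool, (∀ i, i ∉ E → x i = ρ i) →
        ((∀ a, G a x) ↔ ∀ b ∈ C.middle j, ∃ l ∈ C.bottom b,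
          inpVal (Sum.elim x y : Var p D → Bool) l) := by
      intro x hx
      constructor
      · intro hG b hb
        by_cases hwide : (E.filter fun i => (Sum.inl i : Var p D) ∈
            varSet (C.bottom b)).card ≤ 8 * s
        · have := hG ⟨varSet (C.bottom b), Finset.mem_image_of_mem _ hb⟩ hwide b hb rfl
          rw [hfx x hx] at this
          exact this
        · rcases hgr (xl (C.bottom b)) (Finset.mem_image_of_mem _ (Finset.mem_univ _)) with h | h
          · obtain ⟨l, hl, hlT, hlρ⟩ := h
            refine ⟨_, mem_xl.1 hl, ?_⟩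
            show x l.1 = l.2
            rw [hx l.1 ((hET _).2 hlT), hlρ]
          · exfalso
            apply hwide
            refine le_trans (Finset.card_le_card ?_) h
            intro i hi
            rw [Finset.mem_filter] at hi
            rw [Finset.mem_sdiff, image_xl]
            refine ⟨hi.2, fun hiT => ?_⟩
            exact ((hET i).2 hiT) hi.1
      · intro hacc a _ b hb _
        rw [hfx x hx]
        exact hacc b hb
    refine core2 S (8 * s)
      (by
        intro a
        by_cases h : (fv a).card ≤ 8 * s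
        · simp only [S, h, if_true]
        · simp only [S, h, if_false, Finset.card_empty]
          omega) G
      (by
        intro a x x' hxx hGa hcard b hb hvar
        obtain ⟨l, hl, hval⟩ := hGa hcard b hb hvar
        refine ⟨l, hl, ?_⟩
        rcases l with l | c
        · rcases l with ⟨v, β⟩
          rcases v with i | v
          · have hval' : fx x i = β := hval
            show fx x' i = β
            rw [← hval']
            by_cases hi : i ∈ E
            · have hiS : i ∈ S a := by
                simp only [S, hcard, if_true]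
                rw [Finset.mem_filter]
                refine ⟨hi, ?_⟩
                rw [← hvar]
                exact mem_varSet.2 ⟨β, hl⟩
              simp only [fx, hi, if_true]
              exact (hxx i hiS).symm
            · simp only [fx, hi, if_false]
          · exact hval
        · exact hval)
      E ρ D w M h R hw (by nlinarith) hD1 hh
      (by
        intro x x' hx hx' hGx hGx' hcard
        have h1 := hcode j hj x ((hiff x hx).1 hGx)
        have h2 := hcode j hj x' ((hiff x' hx').1 hGx')
        refine code_dist (D := D) hp x x' (fun t ht => ?_) hcard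
        have h3 := h1 ⟨t, ht⟩
        have h4 := h2 ⟨t, ht⟩
        exact h3.trans h4.symm)
      (by
        have h1 : 2 * Fintype.card A * (8 * s) ≤ 16 * m * s := by
          have := Nat.mul_le_mul_right (16 * s) hcardA
          nlinarith
        have h2 : w * p ≤ w * (2 * E.card) := Nat.mul_le_mul_left _ hEc
        have h3 : w * (2 * E.card) = 2 * (w * E.card) := by ring
        have h4 : 32 * m * s = 2 * (16 * m * s) := by ring
        omega)
      (by
        have h4 : 2 * w * (8 * s) = 16 * w * s := by ring
        omega)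
      (by
        have h4 : 4 * M * (2 * 4 ^ w) ^ R = 2 * (2 * (M * (2 * 4 ^ w) ^ R)) := by ring
        omega)
      (F j)
      (fun x hx => by
        have hx1 := (Finset.mem_filter.1 hx).2
        exact ⟨hx1.1, (hiff x hx1.1).2 hx1.2⟩)
  have h1 := (Finset.card_le_card hcover).trans Finset.card_biUnion_le
  have h2 : (∑ j ∈ C.top, (F j).card) * (M.choose h) ^ R ≤ 2 ^ s * 2 ^ E.card := by
    rw [Finset.sum_mul]
    refine (Finset.sum_le_sum hFj).trans ?_
    rw [Finset.sum_const, smul_eq_mul]
    refine Nat.mul_le_mul_right _ (le_trans ?_ hmid)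
    simpa using Finset.card_le_univ C.top
  have h3 : p ^ D ≤ 2 ^ (D * Nat.size p) := by
    rw [Nat.mul_comm, pow_mul]
    exact Nat.pow_le_pow_left (Nat.lt_size_self p).le D
  have h4 : 2 ^ E.card * (M.choose h) ^ R ≤ 2 ^ E.card * 2 ^ (s + D * Nat.size p) := by
    calc 2 ^ E.card * (M.choose h) ^ R
        ≤ (2 ^ (D * Nat.size p) * ∑ j ∈ C.top, (F j).card) * (M.choose h) ^ R :=
          Nat.mul_le_mul_right _ (hy.trans (Nat.mul_le_mul h3 h1))
      _ = 2 ^ (D * Nat.size p) * ((∑ j ∈ C.top, (F j).card) * (M.choose h) ^ R) := by ring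
      _ ≤ 2 ^ (D * Nat.size p) * (2 ^ s * 2 ^ E.card) := Nat.mul_le_mul_left _ h2
      _ = 2 ^ E.card * 2 ^ (s + D * Nat.size p) := by
          rw [pow_add]
          ring
  have h5 := Nat.le_of_mul_le_mul_left h4 (by positivity)
  omega

end Vale.Agent.P336W
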