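import Vale.Agent.P336W.Fin2

/-!
# P336: the core and the finite form with total incidence
-/

open Finset

namespace Vale.Agent.P336W

section

variable {ι A : Type} [Fintype ι] [DecidableEq ι] [Fintype A] [DecidableEq A]

theorem low3 (S : A → Finset ι) (E : Finset ι) (w : ℕ)
    (hw : 1 ≤ w) (c1 : 2 * ∑ a, (S a).card ≤ w * E.card) :
    E.card ≤ 2 * (E.filter fun i => (nb S i).card ≤ w).card := by
  have h1 : (E.filter fun i => ¬ (nb S i).card ≤ w).card * w ≤ ∑ a, (S a).card := by
    calc (E.filter fun i => ¬ (nb S i).card ≤ w).card * w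
        = ∑ _i ∈ E.filter (fun i => ¬ (nb S i).card ≤ w), w := by simp
      _ ≤ ∑ i ∈ E.filter (fun i => ¬ (nb S i).card ≤ w), (nb S i).card := by
          refine Finset.sum_le_sum fun i hi => ?_
          rw [Finset.mem_filter] at hi
          omega
      _ ≤ ∑ i, (nb S i).card := Finset.sum_le_univ_sum_of_nonneg fun _ => Nat.zero_le _
      _ = ∑ a, (S a).card := sum_nb S
  have h2 : (E.filter fun i => (nb S i).card ≤ w).card +
      (E.filter fun i => ¬ (nb S i).card ≤ w).card = E.card :=
    Finset.card_filter_add_card_filter_not _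
  have h3 : w * (2 * (E.filter fun i => ¬ (nb S i).card ≤ w).card) ≤ w * E.card := by
    nlinarith
  have h4 := Nat.le_of_mul_le_mul_left h3 hw
  omega

open Classical in
/-- [CORE3]: total incidence instead of number times width -/
theorem core3 (S : A → Finset ι) (k : ℕ) (hk : ∀ a, (S a).card ≤ k)
    (G : A → (ι → Bool) → Prop) (hG : ∀ a x y, (∀ i ∈ S a, x i = y i) → G a x → G a y)
    (E : Finset ι) (ρ : ι → Bool) (D w M h R : ℕ) (hw : 1 ≤ w) (hM : 1 ≤ M) (hD1 : 1 ≤ D)
    (hh : 2 * h ≤ D)
    (hD : ∀ x y : ι → Bool, (∀ i, i ∉ E → x i = ρ i) → (∀ i, i ∉ E → y i = ρ i) →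
      (∀ a, G a x) → (∀ a, G a y) → (univ.filter fun i => x i ≠ y i).card ≤ D → x = y)
    (c1 : 2 * ∑ a, (S a).card ≤ w * E.card) (c2 : 2 * w * k ≤ M)
    (c3 : 2 * (M * (2 * 4 ^ w) ^ R) ≤ E.card)
    (F : Finset (ι → Bool)) (hF : ∀ x ∈ F, (∀ i, i ∉ E → x i = ρ i) ∧ ∀ a, G a x) :
    F.card * (M.choose h) ^ R ≤ 2 ^ E.card := by
  rcases F.eq_empty_or_nonempty with hFe | ⟨x0, hx0⟩
  · rw [hFe]
    simp
  have hlow := low3 S E w hw c1
  have hne : ∀ i ∈ E, (nb S i).Nonempty := by
    intro i hi
    by_contra hcon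
    rw [Finset.not_nonempty_iff_eq_empty] at hcon
    have h0 := hF x0 hx0
    have h1 : x0 = Function.update x0 i (!(x0 i)) := by
      refine hD x0 _ h0.1 ?_ h0.2 ?_ ?_
      · intro j hj
        have : j ≠ i := fun h => hj (h ▸ hi)
        rw [Function.update_of_ne this]
        exact h0.1 j hj
      · intro a
        refine hG a x0 _ (fun j hj => ?_) (h0.2 a)
        have : j ≠ i := by
          rintro rfl
          have := mem_nb.2 hj
          rw [hcon] at this
          exact absurd this (Finset.notMem_empty _)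
        rw [Function.update_of_ne this]
      · have hsub : (univ.filter fun j => x0 j ≠ Function.update x0 i (!(x0 i)) j) ⊆ {i} := by
          intro j hj
          rw [Finset.mem_filter] at hj
          rw [Finset.mem_singleton]
          by_contra hji
          exact hj.2 (by rw [Function.update_of_ne hji])
        exact (Finset.card_le_card hsub).trans (by simpa using hD1)
    have h2 := congrFun h1 i
    rw [Function.update_self] at h2
    cases h3 : x0 i <;> simp [h3] at h2
  obtain ⟨Z, hZc, hZV, hZ⟩ := peel S k hk G hG E ρ D w M h hM c2 hh hD R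
    (E.filter fun i => (nb S i).card ≤ w) univ (Finset.filter_subset _ _)
    (fun i hi => ⟨(Finset.mem_filter.1 hi).2, hne i (Finset.mem_filter.1 hi).1,
      Finset.subset_univ _⟩) (by omega)
  have h1 : (F ×ˢ Z).card ≤ (univ : Finset ({i // i ∈ E} → Bool)).card := by
    refine Finset.card_le_card_of_injOn (fun xz i => fl xz.1 xz.2 i.1)
      (fun _ _ => Finset.mem_univ _) ?_
    rintro ⟨x, z⟩ hxz ⟨x', z'⟩ hxz' heq
    rw [Finset.mem_coe, Finset.mem_product] at hxz hxz'
    have hzE : z ⊆ E := (hZV z hxz.2).trans (Finset.filter_subset _ _)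
    have hzE' : z' ⊆ E := (hZV z' hxz'.2).trans (Finset.filter_subset _ _)
    have hfl : fl x z = fl x' z' := by
      funext i
      by_cases hi : i ∈ E
      · exact congrFun heq ⟨i, hi⟩
      · have e1 : i ∉ z := fun h => hi (hzE h)
        have e2 : i ∉ z' := fun h => hi (hzE' h)
        have e3 := (hF x hxz.1).1 i hi
        have e4 := (hF x' hxz'.1).1 i hi
        simp [fl, e1, e2, e3, e4]
    have hxx : x = x' := hZ x x' (hF x hxz.1).1 (hF x' hxz'.1).1 (hF x hxz.1).2
      (hF x' hxz'.1).2 z hxz.2 z' hxz'.2 hfl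
    subst hxx
    have hzz : z = z' := by
      ext i
      have h3 := congrFun hfl i
      simp only [fl] at h3
      by_cases h1 : i ∈ z
      · by_cases h2 : i ∈ z'
        · exact ⟨fun _ => h2, fun _ => h1⟩
        · rw [if_pos h1, if_neg h2] at h3
          cases h5 : x i <;> simp [h5] at h3
      · by_cases h2 : i ∈ z'
        · rw [if_neg h1, if_pos h2] at h3
          cases h5 : x i <;> simp [h5] at h3
        · exact ⟨fun h => absurd h h1, fun h => absurd h h2⟩
    rw [hzz]
  rw [Finset.card_product, Finset.card_univ, Fintype.card_fun, Fintype.card_bool,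
    Fintype.card_coe] at h1
  exact (Nat.mul_le_mul_left _ hZc).trans h1

end

open Classical in
/-- [FIN3] -/
theorem fin3 {p D : ℕ} (hp : p.Prime) (hD1 : 1 ≤ D) (C : Circuit (Var p D))
    (hC : ∀ z, C.Accepts z ↔ InCode p D z) (s I w M R h : ℕ) (hs : 1 ≤ s)
    (hsize : C.size ≤ 2 ^ s) (hI : ∀ j ∈ C.top, ∑ a ∈ C.patterns j, a.card ≤ I) (hw : 1 ≤ w)
    (c1 : 4 * I ≤ w * p) (hh : 2 * h ≤ D) (c2 : 16 * w * s ≤ M)
    (c3 : 4 * M * (2 * 4 ^ w) ^ R ≤ p)
    (c4 : 2 ^ (s + D * Nat.size p) < (M.choose h) ^ R) : False := by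
  have hbot : C.bot ≤ 2 ^ s := by
    have : C.size = C.bot + C.mid + 1 := rfl
    omega
  have hmid : C.mid ≤ 2 ^ s := by
    have : C.size = C.bot + C.mid + 1 := rfl
    omega
  obtain ⟨T0, ρ, hT0, hgr⟩ := greedy
    ((univ : Finset (Fin C.bot)).image fun b => xl (C.bottom b)) s hs
    (Finset.card_image_le.trans (by simpa using hbot)) (by simpa using hp.two_le)
  rw [Fintype.card_fin] at hT0
  obtain ⟨E, hE⟩ : ∃ E : Finset (Fin p), E = univ \ T0 := ⟨_, rfl⟩
  have hEc : p ≤ 2 * E.card := by
    have h1 : E.card = p - T0.card := by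
      rw [hE, Finset.card_sdiff_of_subset (Finset.subset_univ _), Finset.card_univ,
        Fintype.card_fin]
    omega
  have hET : ∀ i, i ∉ E ↔ i ∈ T0 := by
    intro i
    rw [hE]
    simp
  obtain ⟨y, hy⟩ := exists_popular (D := D) hp.pos E ρ
  -- the sets accepted by the middle gates
  set F : Fin C.mid → Finset (Fin p → Bool) := fun j => univ.filter fun x =>
    (∀ i, i ∉ E → x i = ρ i) ∧
      ∀ b ∈ C.middle j, ∃ l ∈ C.bottom b, inpVal (Sum.elim x y : Var p D → Bool) l with hFdef
  have hcover : (univ.filter fun x : Fin p → Bool =>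
        (∀ i, i ∉ E → x i = ρ i) ∧ InCode p D (Sum.elim x y)) ⊆ C.top.biUnion F := by
    intro x hx
    rw [Finset.mem_filter] at hx
    obtain ⟨j, hj, hacc⟩ := (hC _).2 hx.2.2
    rw [Finset.mem_biUnion]
    exact ⟨j, hj, Finset.mem_filter.2 ⟨Finset.mem_univ _, hx.2.1, hacc⟩⟩
  have hcode : ∀ j ∈ C.top, ∀ x : Fin p → Bool,
      (∀ b ∈ C.middle j, ∃ l ∈ C.bottom b, inpVal (Sum.elim x y : Var p D → Bool) l) →
      InCode p D (Sum.elim x y) := fun j hj x hx => (hC _).1 ⟨j, hj, hx⟩
  have hFj : ∀ j ∈ C.top, (F j).card * (M.choose h) ^ R ≤ 2 ^ E.card := by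
    intro j hj
    -- the juntas
    let A := {a // a ∈ C.patterns j}
    let fv : A → Finset (Fin p) := fun a => E.filter fun i => (Sum.inl i : Var p D) ∈ a.1
    let S : A → Finset (Fin p) := fun a => if (fv a).card ≤ 8 * s then fv a else ∅
    let fx : (Fin p → Bool) → (Fin p → Bool) := fun x i => if i ∈ E then x i else ρ i
    let G : A → (Fin p → Bool) → Prop := fun a x => (fv a).card ≤ 8 * s →
      ∀ b ∈ C.middle j, varSet (C.bottom b) = a.1 →
        ∃ l ∈ C.bottom b, inpVal (Sum.elim (fx x) y : Var p D → Bool) l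
    have hfv : ∀ a : A, (fv a).card ≤ a.1.card := by
      intro a
      refine Finset.card_le_card_of_injOn (fun i => (Sum.inl i : Var p D)) ?_ ?_
      · intro i hi
        rw [Finset.mem_coe, Finset.mem_filter] at hi
        exact hi.2
      · intro i _ i' _ h
        exact Sum.inl_injective h
    have hSa : ∀ a : A, (S a).card ≤ a.1.card := by
      intro a
      by_cases h : (fv a).card ≤ 8 * s
      · simp only [S, h, if_true]
        exact hfv a
      · simp only [S, h, if_false, Finset.card_empty]
        omega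
    have hsumA : ∑ a, (S a).card ≤ I := by
      calc ∑ a, (S a).card ≤ ∑ a : A, a.1.card := Finset.sum_le_sum fun a _ => hSa a
        _ = ∑ a ∈ C.patterns j, a.card := Finset.sum_coe_sort (C.patterns j) fun a => a.card
        _ ≤ I := hI j hj
    have hfx : ∀ x : Fin p → Bool, (∀ i, i ∉ E → x i = ρ i) → fx x = x := by
      intro x hx
      funext i
      by_cases hi : i ∈ E
      · simp [fx, hi]
      · simp [fx, hi, hx i hi]
    have hiff : ∀ x : Fin p → Bool, (∀ i, i ∉ E → x i = ρ i) →
        ((∀ a, G a x) ↔ ∀ b ∈ C.middle j, ∃ l ∈ C.bottom b,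
          inpVal (Sum.elim x y : Var p D → Bool) l) := by
      intro x hx
      constructor
      · intro hG b hb
        by_cases hwide : (E.filter fun i => (Sum.inl i : Var p D) ∈
            varSet (C.bottom b)).card ≤ 8 * s
        · have := hG ⟨varSet (C.bottom b), Finset.mem_image_of_mem _ hb⟩ hwide b hb rfl
          rw [hfx x hx] at this
          exact this
        · rcases hgr (xl (C.bottom b)) (Finset.mem_image_of_mem _ (Finset.mem_univ _)) with h | h
          · obtain ⟨l, hl, hlT, hlρ⟩ := h
            refine ⟨_, mem_xl.1 hl, ?_⟩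
            show x l.1 = l.2
            rw [hx l.1 ((hET _).2 hlT), hlρ]
          · exfalso
            apply hwide
            refine le_trans (Finset.card_le_card ?_) h
            intro i hi
            rw [Finset.mem_filter] at hi
            rw [Finset.mem_sdiff, image_xl]
            refine ⟨hi.2, fun hiT => ?_⟩
            exact ((hET i).2 hiT) hi.1
      · intro hacc a _ b hb _
        rw [hfx x hx]
        exact hacc b hb
    refine core3 S (8 * s)
      (by
        intro a
        by_cases h : (fv a).card ≤ 8 * s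
        · simp only [S, h, if_true]
        · simp only [S, h, if_false, Finset.card_empty]
          omega) G
      (by
        intro a x x' hxx hGa hcard b hb hvar
        obtain ⟨l, hl, hval⟩ := hGa hcard b hb hvar
        refine ⟨l, hl, ?_⟩
        rcases l with l | c
        · rcases l with ⟨v, β⟩
          rcases v with i | v
          · have hval' : fx x i = β := hval
            show fx x' i = β
            rw [← hval']
            by_cases hi : i ∈ E
            · have hiS : i ∈ S a := by
                simp only [S, hcard, if_true]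
                rw [Finset.mem_filter]
                refine ⟨hi, ?_⟩
                rw [← hvar]
                exact mem_varSet.2 ⟨β, hl⟩
              simp only [fx, hi, if_true]
              exact (hxx i hiS).symm
            · simp only [fx, hi, if_false]
          · exact hval
        · exact hval)
      E ρ D w M h R hw (by nlinarith) hD1 hh
      (by
        intro x x' hx hx' hGx hGx' hcard
        have h1 := hcode j hj x ((hiff x hx).1 hGx)
        have h2 := hcode j hj x' ((hiff x' hx').1 hGx')
        refine code_dist (D := D) hp x x' (fun t ht => ?_) hcard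
        have h3 := h1 ⟨t, ht⟩
        have h4 := h2 ⟨t, ht⟩
        exact h3.trans h4.symm)
      (by
        have h2 : w * p ≤ w * (2 * E.card) := Nat.mul_le_mul_left _ hEc
        have h3 : w * (2 * E.card) = 2 * (w * E.card) := by ring
        omega)
      (by
        have h4 : 2 * w * (8 * s) = 16 * w * s := by ring
        omega)
      (by
        have h4 : 4 * M * (2 * 4 ^ w) ^ R = 2 * (2 * (M * (2 * 4 ^ w) ^ R)) := by ring
        omega)
      (F j)
      (fun x hx => by
        have hx1 := (Finset.mem_filter.1 hx).2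
        exact ⟨hx1.1, (hiff x hx1.1).2 hx1.2⟩)
  have h1 := (Finset.card_le_card hcover).trans Finset.card_biUnion_le
  have h2 : (∑ j ∈ C.top, (F j).card) * (M.choose h) ^ R ≤ 2 ^ s * 2 ^ E.card := by
    rw [Finset.sum_mul]
    refine (Finset.sum_le_sum hFj).trans ?_
    rw [Finset.sum_const, smul_eq_mul]
    refine Nat.mul_le_mul_right _ (le_trans ?_ hmid)
    simpa using Finset.card_le_univ C.top
  have h3 : p ^ D ≤ 2 ^ (D * Nat.size p) := by
    rw [Nat.mul_comm, pow_mul]
    exact Nat.pow_le_pow_left (Nat.lt_size_self p).le D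
  have h4 : 2 ^ E.card * (M.choose h) ^ R ≤ 2 ^ E.card * 2 ^ (s + D * Nat.size p) := by
    calc 2 ^ E.card * (M.choose h) ^ R
        ≤ (2 ^ (D * Nat.size p) * ∑ j ∈ C.top, (F j).card) * (M.choose h) ^ R :=
          Nat.mul_le_mul_right _ (hy.trans (Nat.mul_le_mul h3 h1))
      _ = 2 ^ (D * Nat.size p) * ((∑ j ∈ C.top, (F j).card) * (M.choose h) ^ R) := by ring
      _ ≤ 2 ^ (D * Nat.size p) * (2 ^ s * 2 ^ E.card) := Nat.mul_le_mul_left _ h2
      _ = 2 ^ E.card * 2 ^ (s + D * Nat.size p) := by
          rw [pow_add]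
          ring
  have h5 := Nat.le_of_mul_le_mul_left h4 (by positivity)
  omega

end Vale.Agent.P336W
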