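import Vale.Agent.P336W.Fin3

/-!
# P336: the finite form when the bottom gates are grouped into blocks
-/

open Finset

namespace Vale.Agent.P336W

open Classical in
/-- [FIN4]: the bottom gates are grouped into blocks -/
theorem fin4 {p D : ℕ} (hp : p.Prime) (hD1 : 1 ≤ D) (C : Circuit (Var p D))
    (hC : ∀ z, C.Accepts z ↔ InCode p D z) (s I K w M R h : ℕ)
    (htop : C.top.card ≤ 2 ^ s)
    (hI : ∀ j ∈ C.top, ∃ 𝒯 : Finset (Finset (Var p D)),
      (∀ b ∈ C.middle j, ∃ T ∈ 𝒯, varSet (C.bottom b) ⊆ T) ∧ (∀ T ∈ 𝒯, T.card ≤ K) ∧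
      ∑ T ∈ 𝒯, T.card ≤ I) (hw : 1 ≤ w) (hM1 : 1 ≤ M)
    (c1 : 2 * I ≤ w * p) (hh : 2 * h ≤ D) (c2 : 2 * w * K ≤ M)
    (c3 : 2 * M * (2 * 4 ^ w) ^ R ≤ p)
    (c4 : 2 ^ (s + D * Nat.size p) < (M.choose h) ^ R) : False := by
  obtain ⟨ρ, hρ⟩ : ∃ ρ : Fin p → Bool, ρ = fun _ => false := ⟨_, rfl⟩
  obtain ⟨E, hE⟩ : ∃ E : Finset (Fin p), E = univ := ⟨_, rfl⟩
  have hEc : E.card = p := by rw [hE, Finset.card_univ, Fintype.card_fin]
  obtain ⟨y, hy⟩ := exists_popular (D := D) hp.pos E ρ
  -- the sets accepted by the middle gates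
  set F : Fin C.mid → Finset (Fin p → Bool) := fun j => univ.filter fun x =>
    (∀ i, i ∉ E → x i = ρ i) ∧
      ∀ b ∈ C.middle j, ∃ l ∈ C.bottom b, inpVal (Sum.elim x y : Var p D → Bool) l with hFdef
  have hcover : (univ.filter fun x : Fin p → Bool =>
        (∀ i, i ∉ E → x i = ρ i) ∧ InCode p D (Sum.elim x y)) ⊆ C.top.biUnion F := by
    intro x hx
    rw [Finset.mem_filter] at hx
    obtain ⟨j, hj, hacc⟩ := (hC _).2 hx.2.2
    rw [Finset.mem_biUnion]
    exact ⟨j, hj, Finset.mem_filter.2 ⟨Finset.mem_univ _, hx.2.1, hacc⟩⟩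
  have hcode : ∀ j ∈ C.top, ∀ x : Fin p → Bool,
      (∀ b ∈ C.middle j, ∃ l ∈ C.bottom b, inpVal (Sum.elim x y : Var p D → Bool) l) →
      InCode p D (Sum.elim x y) := fun j hj x hx => (hC _).1 ⟨j, hj, hx⟩
  have hFj : ∀ j ∈ C.top, (F j).card * (M.choose h) ^ R ≤ 2 ^ E.card := by
    intro j hj
    -- the juntas
    obtain ⟨𝒯, hcov, hK, hsum⟩ := hI j hj
    let A := {a // a ∈ 𝒯}
    let S : A → Finset (Fin p) := fun a => univ.filter fun i => (Sum.inl i : Var p D) ∈ a.1
    let G : A → (Fin p → Bool) → Prop := fun a x =>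
      ∀ b ∈ C.middle j, varSet (C.bottom b) ⊆ a.1 →
        ∃ l ∈ C.bottom b, inpVal (Sum.elim x y : Var p D → Bool) l
    have hiff : ∀ x : Fin p → Bool,
        ((∀ a, G a x) ↔ ∀ b ∈ C.middle j, ∃ l ∈ C.bottom b,
          inpVal (Sum.elim x y : Var p D → Bool) l) := by
      intro x
      constructor
      · intro hG b hb
        obtain ⟨T, hT, hTb⟩ := hcov b hb
        exact hG ⟨T, hT⟩ b hb hTb
      · intro hacc a b hb _
        exact hacc b hb
    have hSa : ∀ a : A, (S a).card ≤ a.1.card := by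
      intro a
      refine Finset.card_le_card_of_injOn (fun i => (Sum.inl i : Var p D)) ?_ ?_
      · intro i hi
        rw [Finset.mem_coe, Finset.mem_filter] at hi
        exact hi.2
      · intro i _ i' _ h
        exact Sum.inl_injective h
    have hsumA : ∑ a, (S a).card ≤ I := by
      calc ∑ a, (S a).card ≤ ∑ a : A, a.1.card := Finset.sum_le_sum fun a _ => hSa a
        _ = ∑ a ∈ 𝒯, a.card := Finset.sum_coe_sort 𝒯 fun a => a.card
        _ ≤ I := hsum
    refine core3 S K (fun a => (hSa a).trans (hK a.1 a.2)) G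
      (by
        intro a x x' hxx hGa b hb hvar
        obtain ⟨l, hl, hval⟩ := hGa b hb hvar
        refine ⟨l, hl, ?_⟩
        rcases l with l | c
        · rcases l with ⟨v, β⟩
          rcases v with i | v
          · have hval' : x i = β := hval
            show x' i = β
            rw [← hval']
            refine (hxx i ?_).symm
            rw [Finset.mem_filter]
            exact ⟨Finset.mem_univ _, hvar (mem_varSet.2 ⟨β, hl⟩)⟩
          · exact hval
        · exact hval)
      E ρ D w M h R hw hM1 hD1 hh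
      (by
        intro x x' hx hx' hGx hGx' hcard
        have h1 := hcode j hj x ((hiff x).1 hGx)
        have h2 := hcode j hj x' ((hiff x').1 hGx')
        refine code_dist (D := D) hp x x' (fun t ht => ?_) hcard
        have h3 := h1 ⟨t, ht⟩
        have h4 := h2 ⟨t, ht⟩
        exact h3.trans h4.symm)
      (by
        rw [hEc]
        omega)
      c2
      (by
        rw [hEc]
        have h4 : 2 * M * (2 * 4 ^ w) ^ R = 2 * (M * (2 * 4 ^ w) ^ R) := by ring
        omega)
      (F j)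
      (fun x hx => by
        have hx1 := (Finset.mem_filter.1 hx).2
        exact ⟨hx1.1, (hiff x).2 hx1.2⟩)
  have h1 := (Finset.card_le_card hcover).trans Finset.card_biUnion_le
  have h2 : (∑ j ∈ C.top, (F j).card) * (M.choose h) ^ R ≤ 2 ^ s * 2 ^ E.card := by
    rw [Finset.sum_mul]
    refine (Finset.sum_le_sum hFj).trans ?_
    rw [Finset.sum_const, smul_eq_mul]
    exact Nat.mul_le_mul_right _ htop
  have h3 : p ^ D ≤ 2 ^ (D * Nat.size p) := by
    rw [Nat.mul_comm, pow_mul]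
    exact Nat.pow_le_pow_left (Nat.lt_size_self p).le D
  have h4 : 2 ^ E.card * (M.choose h) ^ R ≤ 2 ^ E.card * 2 ^ (s + D * Nat.size p) := by
    calc 2 ^ E.card * (M.choose h) ^ R
        ≤ (2 ^ (D * Nat.size p) * ∑ j ∈ C.top, (F j).card) * (M.choose h) ^ R :=
          Nat.mul_le_mul_right _ (hy.trans (Nat.mul_le_mul h3 h1))
      _ = 2 ^ (D * Nat.size p) * ((∑ j ∈ C.top, (F j).card) * (M.choose h) ^ R) := by ring
      _ ≤ 2 ^ (D * Nat.size p) * (2 ^ s * 2 ^ E.card) := Nat.mul_le_mul_left _ h2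
      _ = 2 ^ E.card * 2 ^ (s + D * Nat.size p) := by
          rw [pow_add]
          ring
  have h5 := Nat.le_of_mul_le_mul_left h4 (by positivity)
  omega

end Vale.Agent.P336W
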