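import Vale.Agent.P336W.Defs

/-!
P336, row GREEDY: half of the variables can be fixed so that all clauses are satisfied or short.
-/

open Finset

namespace Vale.Agent.P336W

/-- the alive wide clauses -/
def aliveW {ι : Type} [DecidableEq ι] (K : Finset (Finset (ι × Bool))) (s : ℕ)
    (T : Finset ι) (ρ : ι → Bool) : Finset (Finset (ι × Bool)) :=
  K.filter fun g => ¬ ((∃ l ∈ g, l.1 ∈ T ∧ ρ l.1 = l.2) ∨ ((g.image Prod.fst) \ T).card ≤ 8 * s)

theorem greedy_step {ι : Type} [Fintype ι] [DecidableEq ι] (K : Finset (Finset (ι × Bool))) (s : ℕ)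
    (hn : 1 ≤ Fintype.card ι) (T : Finset ι) (ρ : ι → Bool) (hW : (aliveW K s T ρ).Nonempty) :
    ∃ l : ι × Bool, l.1 ∉ T ∧ 4 * s * (aliveW K s T ρ).card ≤
      Fintype.card ι * ((aliveW K s T ρ).filter fun g => l ∈ g).card := by
  by_contra hcon
  push Not at hcon
  set W := aliveW K s T ρ with hWdef
  have h1 : ∑ l ∈ univ.filter (fun l : ι × Bool => l.1 ∉ T), (W.filter fun g => l ∈ g).card =
      ∑ g ∈ W, ((univ.filter (fun l : ι × Bool => l.1 ∉ T)).filter fun l => l ∈ g).card :=
    sum_card_bipartiteAbove_eq_sum_card_bipartiteBelow (fun l g => l ∈ g)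
  have h2 : ∀ g ∈ W, 8 * s + 1 ≤
      ((univ.filter (fun l : ι × Bool => l.1 ∉ T)).filter fun l => l ∈ g).card := by
    intro g hg
    have h3 : 8 * s < ((g.image Prod.fst) \ T).card := by
      rw [hWdef, aliveW, mem_filter] at hg
      have := hg.2
      push Not at this
      exact this.2
    refine le_trans h3 ?_
    refine le_trans (card_le_card ?_) (card_image_le (f := Prod.fst))
    intro i hi
    rw [mem_sdiff, mem_image] at hi
    obtain ⟨⟨l, hl, rfl⟩, hT⟩ := hi
    rw [mem_image]
    exact ⟨l, mem_filter.2 ⟨mem_filter.2 ⟨mem_univ _, hT⟩, hl⟩, rfl⟩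
  have h4 : (8 * s + 1) * W.card ≤
      ∑ l ∈ univ.filter (fun l : ι × Bool => l.1 ∉ T), (W.filter fun g => l ∈ g).card := by
    rw [h1, mul_comm, ← smul_eq_mul]
    exact card_nsmul_le_sum _ _ _ h2
  have h5 : Fintype.card ι * ∑ l ∈ univ.filter (fun l : ι × Bool => l.1 ∉ T),
      (W.filter fun g => l ∈ g).card ≤ (2 * Fintype.card ι) * (4 * s * W.card) := by
    rw [mul_sum]
    have h6 : ∑ l ∈ univ.filter (fun l : ι × Bool => l.1 ∉ T),
        Fintype.card ι * (W.filter fun g => l ∈ g).card ≤
        (univ.filter (fun l : ι × Bool => l.1 ∉ T)).card • (4 * s * W.card) :=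
      sum_le_card_nsmul _ _ _ fun l hl => (hcon l (mem_filter.1 hl).2).le
    refine h6.trans ?_
    rw [smul_eq_mul]
    refine Nat.mul_le_mul_right _ ?_
    refine (card_le_univ _).trans ?_
    rw [Fintype.card_prod, Fintype.card_bool, mul_comm]
  have h7 : Fintype.card ι * ((8 * s + 1) * W.card) ≤ (2 * Fintype.card ι) * (4 * s * W.card) :=
    (Nat.mul_le_mul_left _ h4).trans h5
  have h8 : 1 ≤ W.card := card_pos.2 hW
  have h9 : 1 ≤ Fintype.card ι * W.card := Nat.mul_pos hn h8
  nlinarith

theorem greedy_induct {ι : Type} [Fintype ι] [DecidableEq ι] (K : Finset (Finset (ι × Bool)))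
    (s : ℕ) (hn : 1 ≤ Fintype.card ι) (hs : 4 * s ≤ Fintype.card ι) (t : ℕ) :
    ∃ (T : Finset ι) (ρ : ι → Bool), T.card ≤ t ∧
      ((aliveW K s T ρ).card : ℝ) ≤ (1 - 4 * s / Fintype.card ι) ^ t * K.card := by
  induction t with
  | zero =>
    refine ⟨∅, fun _ => true, by simp, ?_⟩
    rw [pow_zero, one_mul]
    exact_mod_cast card_filter_le _ _
  | succ t ih =>
    obtain ⟨T, ρ, hT, hW⟩ := ih
    have hn' : (0 : ℝ) < Fintype.card ι := by exact_mod_cast hn
    have hq : (0 : ℝ) ≤ 1 - 4 * s / Fintype.card ι := by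
      rw [sub_nonneg, div_le_one hn']
      exact_mod_cast hs
    by_cases hne : (aliveW K s T ρ).Nonempty
    · obtain ⟨l, hl, hl2⟩ := greedy_step K s hn T ρ hne
      refine ⟨insert l.1 T, Function.update ρ l.1 l.2, ?_, ?_⟩
      · exact (card_insert_le _ _).trans (by omega)
      · have hsub : aliveW K s (insert l.1 T) (Function.update ρ l.1 l.2) ⊆
            (aliveW K s T ρ).filter fun g => ¬ l ∈ g := by
          intro g hg
          rw [aliveW, mem_filter] at hg
          obtain ⟨hgK, hg2⟩ := hg
          push Not at hg2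
          rw [mem_filter, aliveW, mem_filter]
          refine ⟨⟨hgK, ?_⟩, ?_⟩
          · push Not
            refine ⟨fun m hm hmT => ?_, ?_⟩
            · have h1 := hg2.1 m hm (mem_insert_of_mem hmT)
              have h2 : m.1 ≠ l.1 := fun h => hl (h ▸ hmT)
              rwa [Function.update_of_ne h2] at h1
            · refine lt_of_lt_of_le hg2.2 (card_le_card ?_)
              exact sdiff_subset_sdiff (Subset.refl _) (subset_insert _ _)
          · intro hlg
            apply hg2.1 l hlg (mem_insert_self _ _)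
            rw [Function.update_self]
        have h1 : ((aliveW K s T ρ).filter fun g => l ∈ g).card +
            ((aliveW K s T ρ).filter fun g => ¬ l ∈ g).card = (aliveW K s T ρ).card :=
          card_filter_add_card_filter_not _
        have h2 := card_le_card hsub
        have h3 : (((aliveW K s (insert l.1 T) (Function.update ρ l.1 l.2)).card : ℕ) : ℝ) ≤
            ((aliveW K s T ρ).card : ℝ) -
              (((aliveW K s T ρ).filter fun g => l ∈ g).card : ℝ) := by
          have h4 : (((aliveW K s (insert l.1 T) (Function.update ρ l.1 l.2)).card : ℕ) : ℝ) ≤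
            (((aliveW K s T ρ).filter fun g => ¬ l ∈ g).card : ℝ) := by exact_mod_cast h2
          have h5 : (((aliveW K s T ρ).filter fun g => l ∈ g).card : ℝ) +
            (((aliveW K s T ρ).filter fun g => ¬ l ∈ g).card : ℝ) = (aliveW K s T ρ).card := by
            exact_mod_cast h1
          linarith
        have h6 : (4 * s / Fintype.card ι : ℝ) * (aliveW K s T ρ).card ≤
            (((aliveW K s T ρ).filter fun g => l ∈ g).card : ℝ) := by
          rw [div_mul_eq_mul_div, div_le_iff₀ hn']
          have : ((4 * s * (aliveW K s T ρ).card : ℕ) : ℝ) ≤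
            ((Fintype.card ι * ((aliveW K s T ρ).filter fun g => l ∈ g).card : ℕ) : ℝ) := by
            exact_mod_cast hl2
          push_cast at this
          linarith
        calc (((aliveW K s (insert l.1 T) (Function.update ρ l.1 l.2)).card : ℕ) : ℝ)
            ≤ (1 - 4 * s / Fintype.card ι) * (aliveW K s T ρ).card := by linarith
          _ ≤ (1 - 4 * s / Fintype.card ι) * ((1 - 4 * s / Fintype.card ι) ^ t * K.card) :=
            mul_le_mul_of_nonneg_left hW hq
          _ = (1 - 4 * s / Fintype.card ι) ^ (t + 1) * K.card := by ring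
    · rw [not_nonempty_iff_eq_empty] at hne
      refine ⟨T, ρ, by omega, ?_⟩
      rw [hne, card_empty, Nat.cast_zero]
      positivity

/-- [GREEDY] -/
theorem greedy {ι : Type} [Fintype ι] [DecidableEq ι] (K : Finset (Finset (ι × Bool))) (s : ℕ)
    (hs : 1 ≤ s) (hK : K.card ≤ 2 ^ s) (hι : 2 ≤ Fintype.card ι) :
    ∃ (T : Finset ι) (ρ : ι → Bool), 2 * T.card ≤ Fintype.card ι ∧
      ∀ g ∈ K, (∃ l ∈ g, l.1 ∈ T ∧ ρ l.1 = l.2) ∨ ((g.image Prod.fst) \ T).card ≤ 8 * s := by
  by_cases h4 : 4 * s ≤ Fintype.card ι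
  · obtain ⟨T, ρ, hT, hW⟩ := greedy_induct K s (by omega) h4 (Fintype.card ι / 2)
    refine ⟨T, ρ, by omega, ?_⟩
    have hn' : (0 : ℝ) < Fintype.card ι := by
      have : 0 < Fintype.card ι := by omega
      exact_mod_cast this
    have hlt : ((aliveW K s T ρ).card : ℝ) < 1 := by
      have h1 : (1 - 4 * s / Fintype.card ι : ℝ) ^ (Fintype.card ι / 2) ≤
          Real.exp (-(4 * s / 3 : ℝ)) := by
        have h2 : (1 - 4 * s / Fintype.card ι : ℝ) ≤ Real.exp (-(4 * s / Fintype.card ι : ℝ)) :=
          Real.one_sub_le_exp_neg _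
        have hq : (0 : ℝ) ≤ 1 - 4 * s / Fintype.card ι := by
          rw [sub_nonneg, div_le_one hn']
          exact_mod_cast h4
        calc (1 - 4 * s / Fintype.card ι : ℝ) ^ (Fintype.card ι / 2)
            ≤ Real.exp (-(4 * s / Fintype.card ι : ℝ)) ^ (Fintype.card ι / 2) :=
              pow_le_pow_left₀ hq h2 _
          _ = Real.exp (((Fintype.card ι / 2 : ℕ) : ℝ) * (-(4 * s / Fintype.card ι : ℝ))) := by
              rw [← Real.exp_nat_mul]
          _ ≤ Real.exp (-(4 * s / 3 : ℝ)) := by
              apply Real.exp_le_exp.2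
              have h3 : (Fintype.card ι : ℝ) ≤ 3 * ((Fintype.card ι / 2 : ℕ) : ℝ) := by
                have : Fintype.card ι ≤ 3 * (Fintype.card ι / 2) := by omega
                exact_mod_cast this
              have h5 : (4 * s / 3 : ℝ) ≤
                  ((Fintype.card ι / 2 : ℕ) : ℝ) * (4 * s / Fintype.card ι : ℝ) := by
                rw [mul_div_assoc', le_div_iff₀ hn']
                have hs0 : (0 : ℝ) ≤ s := Nat.cast_nonneg _
                nlinarith
              linarith
      have h6 : (K.card : ℝ) ≤ 2 ^ s := by exact_mod_cast hK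
      have h7 : ((aliveW K s T ρ).card : ℝ) ≤ Real.exp (-(4 * s / 3 : ℝ)) * 2 ^ s :=
        hW.trans (mul_le_mul h1 h6 (Nat.cast_nonneg _) (Real.exp_pos _).le)
      refine lt_of_le_of_lt h7 ?_
      have h8 : (2 : ℝ) ^ s = Real.exp (s * Real.log 2) := by
        rw [Real.exp_nat_mul, Real.exp_log (by norm_num)]
      rw [h8, ← Real.exp_add]
      rw [Real.exp_lt_one_iff]
      have h9 : Real.log 2 < 1 := by
        have := Real.log_two_lt_d9
        linarith
      have hs1 : (1 : ℝ) ≤ s := by exact_mod_cast hs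
      nlinarith
    have h0 : aliveW K s T ρ = ∅ := by
      rw [← card_eq_zero]
      have : (aliveW K s T ρ).card < 1 := by exact_mod_cast hlt
      omega
    intro g hg
    by_contra hcon
    have : g ∈ aliveW K s T ρ := mem_filter.2 ⟨hg, hcon⟩
    rw [h0] at this
    exact absurd this (notMem_empty _)
  · refine ⟨∅, fun _ => true, by simp, fun g _ => Or.inr ?_⟩
    have := card_le_univ ((g.image Prod.fst) \ ∅)
    omega

end Vale.Agent.P336W
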