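import Vale.Agent.P336W.Defs

open Finset

namespace Vale.Agent.P336W

theorem two_le_size {p D : ℕ} (C : Circuit (Var p D)) (hC : ∀ z, C.Accepts z ↔ InCode p D z) :
    2 ≤ C.size := by
  have h0 : InCode p D (fun _ => false) := by
    intro j
    simp only [Bool.false_eq_true, if_false, Finset.sum_const_zero]
    exact Nat.ModEq.refl _
  obtain ⟨j, hj, -⟩ := (hC _).2 h0
  have := j.2
  have h : C.size = C.bot + C.mid + 1 := rfl
  omega

theorem log_le_sqrt {p : ℕ} (hp : 16 ≤ p) {ε δ : ℝ} (hε : ε ≤ 1 / 4) (hδ : 0 < δ) (hδ1 : δ ≤ 1) :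
    0 ≤ δ * (p * Real.log p / Real.log (Real.log p)) ∧
    Real.sqrt (δ * (p * Real.log p / Real.log (Real.log p))) ≤ (p : ℝ) ^ (1 - ε) := by
  have hp' : (16 : ℝ) ≤ p := by exact_mod_cast hp
  have hp0 : (0 : ℝ) < p := by linarith
  have hlog16 : Real.exp 1 ≤ Real.log 16 := by
    have h1 : Real.log 16 = 4 * Real.log 2 := by
      rw [show (16 : ℝ) = 2 ^ (4 : ℕ) by norm_num, Real.log_pow]
      norm_num
    have h2 := Real.log_two_gt_d9
    have h3 := Real.exp_one_lt_d9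
    rw [h1]
    linarith
  have hlog : Real.exp 1 ≤ Real.log p :=
    hlog16.trans (Real.log_le_log (by norm_num) hp')
  have hlogpos : 0 < Real.log p := lt_of_lt_of_le (Real.exp_pos 1) hlog
  have hll : 1 ≤ Real.log (Real.log p) := by
    rw [Real.le_log_iff_exp_le hlogpos]
    exact hlog
  have hX0 : 0 ≤ (p * Real.log p / Real.log (Real.log p)) := by positivity
  refine ⟨by positivity, ?_⟩
  have h1 : δ * (p * Real.log p / Real.log (Real.log p)) ≤ p * Real.log p := by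
    calc δ * (p * Real.log p / Real.log (Real.log p))
        ≤ 1 * (p * Real.log p / Real.log (Real.log p)) :=
          mul_le_mul_of_nonneg_right hδ1 hX0
      _ ≤ p * Real.log p := by
          rw [one_mul]
          exact div_le_self (by positivity) hll
  have h2 : Real.log p ≤ (p : ℝ) ^ (1 / 2 : ℝ) := by
    have h3 := Real.log_le_sub_one_of_pos (Real.rpow_pos_of_pos hp0 (1 / 4 : ℝ))
    rw [Real.log_rpow hp0] at h3
    have h4 : (p : ℝ) ^ (1 / 2 : ℝ) = ((p : ℝ) ^ (1 / 4 : ℝ)) ^ (2 : ℕ) := by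
      rw [← Real.rpow_natCast, ← Real.rpow_mul hp0.le]
      norm_num
    rw [h4]
    nlinarith [sq_nonneg ((p : ℝ) ^ (1 / 4 : ℝ) - 2)]
  have h3 : (p : ℝ) * Real.log p ≤ (p : ℝ) ^ (3 / 2 : ℝ) := by
    calc (p : ℝ) * Real.log p ≤ (p : ℝ) ^ (1 : ℝ) * (p : ℝ) ^ (1 / 2 : ℝ) := by
          rw [Real.rpow_one]
          exact mul_le_mul_of_nonneg_left h2 hp0.le
      _ = (p : ℝ) ^ (3 / 2 : ℝ) := by
          rw [← Real.rpow_add hp0]
          norm_num
  have h4 : (p : ℝ) ^ (3 / 2 : ℝ) ≤ ((p : ℝ) ^ (1 - ε)) ^ (2 : ℕ) := by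
    rw [← Real.rpow_natCast, ← Real.rpow_mul hp0.le]
    apply Real.rpow_le_rpow_of_exponent_le (by linarith)
    push_cast
    linarith
  rw [Real.sqrt_le_left (by positivity)]
  linarith

end Vale.Agent.P336W
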