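import Vale.Agent.P336W.FinalA

namespace Vale.Agent.P336W

theorem log_le_sqrt2 {p : ℕ} (hp : 16 ≤ p) {ε δ : ℝ} (hε : ε ≤ 1 / 4) (hδ : 0 < δ)
    (hδ1 : δ ≤ 1) :
    0 ≤ δ * (p * Real.log p) ∧
    Real.sqrt (δ * (p * Real.log p)) ≤ (p : ℝ) ^ (1 - ε) := by
  have hp' : (16 : ℝ) ≤ p := by exact_mod_cast hp
  have hp0 : (0 : ℝ) < p := by linarith
  have hlogpos : 0 < Real.log p := Real.log_pos (by linarith)
  refine ⟨by positivity, ?_⟩
  have h1 : δ * (p * Real.log p) ≤ p * Real.log p := by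
    calc δ * (p * Real.log p)
        ≤ 1 * (p * Real.log p) :=
          mul_le_mul_of_nonneg_right hδ1 (by positivity)
      _ = p * Real.log p := one_mul _
  have h2 : Real.log p ≤ (p : ℝ) ^ (1 / 2 : ℝ) := by
    have h3 := Real.log_le_sub_one_of_pos (Real.rpow_pos_of_pos hp0 (1 / 4 : ℝ))
    rw [Real.log_rpow hp0] at h3
    have h4 : (p : ℝ) ^ (1 / 2 : ℝ) = ((p : ℝ) ^ (1 / 4 : ℝ)) ^ (2 : ℕ) := by
      rw [← Real.rpow_natCast, ← Real.rpow_mul hp0.le]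
      norm_num
    rw [h4]
    nlinarith [sq_nonneg ((p : ℝ) ^ (1 / 4 : ℝ) - 2)]
  have h3 : (p : ℝ) * Real.log p ≤ (p : ℝ) ^ (3 / 2 : ℝ) := by
    calc (p : ℝ) * Real.log p ≤ (p : ℝ) ^ (1 : ℝ) * (p : ℝ) ^ (1 / 2 : ℝ) := by
          rw [Real.rpow_one]
          exact mul_le_mul_of_nonneg_left h2 hp0.le
      _ = (p : ℝ) ^ (3 / 2 : ℝ) := by
          rw [← Real.rpow_add hp0]
          norm_num
  have h4 : (p : ℝ) ^ (3 / 2 : ℝ) ≤ ((p : ℝ) ^ (1 - ε)) ^ (2 : ℕ) := by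
    rw [← Real.rpow_natCast, ← Real.rpow_mul hp0.le]
    apply Real.rpow_le_rpow_of_exponent_le (by linarith)
    push_cast
    linarith
  rw [Real.sqrt_le_left (by positivity)]
  linarith

end Vale.Agent.P336W
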